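import Vale.Agent.P168.Statements

/-! Dominated convergence along the iterated filter of branching numbers. -/

open MeasureTheory ProbabilityTheory Filter
open scoped BigOperators NNReal ENNReal Topology

noncomputable section

namespace Vale.Agent.P168.States

open Vale.Agent.P168

theorem eventually_cascFilter_succ {r : ℕ} {p : (Fin (r + 1) → ℕ) → Prop} :
    (∀ᶠ n in cascFilter (r + 1), p n) ↔
      ∀ᶠ n₀ in atTop, ∀ᶠ n in cascFilter r, p (Fin.cons n₀ n) := by
  rw [cascFilter, eventually_bind]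
  exact eventually_congr (Eventually.of_forall fun n₀ => eventually_map)

instance neBot_cascFilter (r : ℕ) : (cascFilter r).NeBot := by
  induction r with
  | zero => rw [cascFilter]; infer_instance
  | succ r ih =>
    refine ⟨fun h => ?_⟩
    have h1 : ∀ᶠ _n in cascFilter (r + 1), False := by simp [h]
    rw [eventually_cascFilter_succ] at h1
    obtain ⟨n₀, hn₀⟩ := h1.exists
    exact ih.ne (eventually_false_iff_eq_bot.1 hn₀)

theorem eventually_one_le (r : ℕ) : ∀ᶠ n in cascFilter r, ∀ p, 1 ≤ n p := by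
  induction r with
  | zero => exact Eventually.of_forall fun n p => p.elim0
  | succ r ih =>
    rw [eventually_cascFilter_succ]
    filter_upwards [eventually_ge_atTop 1] with n₀ hn₀
    filter_upwards [ih] with n hn
    exact fun p => Fin.cases hn₀ hn p

/-- Iterated limit superior. -/
def iterSup : (r : ℕ) → ((Fin r → ℕ) → ℝ≥0∞) → ℝ≥0∞
  | 0, g => g Fin.elim0
  | r + 1, g => limsup (fun n₀ : ℕ => iterSup r fun n => g (Fin.cons n₀ n)) atTop

theorem iterSup_le {r : ℕ} {g : (Fin r → ℕ) → ℝ≥0∞} {a : ℝ≥0∞}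
    (h : ∀ᶠ n in cascFilter r, g n ≤ a) : iterSup r g ≤ a := by
  induction r with
  | zero => simpa [cascFilter, iterSup] using h
  | succ r ih =>
    rw [eventually_cascFilter_succ] at h
    exact limsup_le_of_le (h := h.mono fun n₀ hn₀ => ih hn₀)

theorem measurable_iterSup {Z : Type*} [MeasurableSpace Z] {r : ℕ}
    {g : (Fin r → ℕ) → Z → ℝ≥0∞} (hg : ∀ n, Measurable (g n)) :
    Measurable fun z => iterSup r fun n => g n z := by
  induction r with
  | zero => exact hg _
  | succ r ih => exact Measurable.limsup fun n₀ => ih fun n => hg _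

theorem eventually_lintegral_lt {Z : Type*} [MeasurableSpace Z] {μ : Measure Z} {r : ℕ}
    {g : (Fin r → ℕ) → Z → ℝ≥0∞} {b : Z → ℝ≥0∞} (hg : ∀ n, Measurable (g n))
    (hb : ∀ n, ∀ z, g n z ≤ b z) (hfin : ∫⁻ z, b z ∂μ ≠ ∞) {a : ℝ≥0∞}
    (ha : ∫⁻ z, iterSup r (fun n => g n z) ∂μ < a) :
    ∀ᶠ n in cascFilter r, ∫⁻ z, g n z ∂μ < a := by
  induction r with
  | zero => simpa [cascFilter, iterSup] using ha
  | succ r ih =>
    rw [eventually_cascFilter_succ]
    have h := lt_of_le_of_lt (limsup_lintegral_le b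
      (f := fun n₀ z => iterSup r fun n => g (Fin.cons n₀ n) z)
      (fun n₀ => measurable_iterSup fun n => hg _)
      (fun n₀ => ae_of_all _ fun z => iterSup_le (Eventually.of_forall fun n => hb _ z)) hfin) ha
    filter_upwards [eventually_lt_of_limsup_lt h] with n₀ hn₀
    exact ih (fun n => hg _) (fun n => hb _) hn₀

/-- Dominated convergence along `cascFilter`. -/
theorem tendsto_integral_cascFilter {Z : Type*} [MeasurableSpace Z] {μ : Measure Z} {r : ℕ}
    {g : (Fin r → ℕ) → Z → ℝ} {f B : Z → ℝ} (hg : ∀ n, Measurable (g n)) (hf : Measurable f)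
    (hB : Measurable B) (hBi : Integrable B μ)
    (hgb : ∀ᶠ n in cascFilter r, ∀ᵐ z ∂μ, |g n z| ≤ B z)
    (hfb : ∀ᵐ z ∂μ, |f z| ≤ B z)
    (hlim : ∀ᵐ z ∂μ, Tendsto (fun n => g n z) (cascFilter r) (𝓝 (f z))) :
    Tendsto (fun n => ∫ z, g n z ∂μ) (cascFilter r) (𝓝 (∫ z, f z ∂μ)) := by
  rw [Metric.tendsto_nhds]
  intro η hη
  set d : (Fin r → ℕ) → Z → ℝ := fun n z => min |g n z - f z| (2 * |B z|) with hd
  set G : (Fin r → ℕ) → Z → ℝ≥0∞ := fun n z => ENNReal.ofReal (d n z) with hG
  have hdm : ∀ n, Measurable (d n) := fun n =>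
    ((hg n).sub hf).abs.min (hB.abs.const_mul 2)
  have hfin : ∫⁻ z, ENNReal.ofReal (2 * |B z|) ∂μ ≠ ∞ := by
    rw [← ofReal_integral_eq_lintegral_ofReal (hBi.abs.const_mul 2)
      (ae_of_all _ fun z => by positivity)]
    exact ENNReal.ofReal_ne_top
  have hzero : ∫⁻ z, iterSup r (fun n => G n z) ∂μ = 0 := by
    rw [lintegral_eq_zero_iff (measurable_iterSup fun n => (hdm n).ennreal_ofReal)]
    filter_upwards [hlim] with z hz
    refine le_antisymm (le_of_forall_gt_imp_ge_of_dense fun a ha => iterSup_le ?_) bot_le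
    have h0 : Tendsto (fun n => G n z) (cascFilter r) (𝓝 0) := by
      have h1 : Tendsto (fun n => d n z) (cascFilter r) (𝓝 0) :=
        squeeze_zero (fun n => le_min (abs_nonneg _) (by positivity)) (fun n => min_le_left _ _)
          (tendsto_iff_norm_sub_tendsto_zero.1 hz)
      simpa [hG] using ENNReal.tendsto_ofReal h1
    exact (h0.eventually_lt_const ha).mono fun n hn => hn.le
  have hev := eventually_lintegral_lt (fun n => (hdm n).ennreal_ofReal)
    (fun n z => ENNReal.ofReal_le_ofReal (min_le_right _ _)) hfin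
    (show ∫⁻ z, iterSup r (fun n => G n z) ∂μ < ENNReal.ofReal η by rw [hzero]; simpa using hη)
  filter_upwards [hev, hgb] with n hn hbn
  have hgi : Integrable (g n) μ := hBi.mono' (hg n).aestronglyMeasurable hbn
  have hfi : Integrable f μ := hBi.mono' hf.aestronglyMeasurable hfb
  have heq : (fun z => |g n z - f z|) =ᵐ[μ] d n := by
    filter_upwards [hbn, hfb] with z h1 h2
    refine (min_eq_left ?_).symm
    linarith [abs_sub (g n z) (f z), le_abs_self (B z)]
  rw [Real.dist_eq, ← integral_sub hgi hfi]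
  refine lt_of_le_of_lt abs_integral_le_integral_abs ?_
  rw [integral_congr_ae heq, ← ENNReal.ofReal_lt_ofReal_iff hη,
    ofReal_integral_eq_lintegral_ofReal ((hgi.sub hfi).abs.congr heq)
      (ae_of_all _ fun z => le_min (abs_nonneg _) (by positivity))]
  exact hn

end Vale.Agent.P168.States
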