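import Vale.Agent.P168.Statements

/-! Bounds, expansions and measurability of the site and edge terms. -/

open MeasureTheory ProbabilityTheory Filter
open scoped BigOperators NNReal ENNReal

noncomputable section

namespace Vale.Agent.P168.States

open Vale.Agent.P168

instance isProb_unif : IsProbabilityMeasure unif :=
  ⟨by simp [unif, Real.volume_Icc]⟩

instance isProb_unifFin {α : Type*} [Fintype α] [Nonempty α] [MeasurableSpace α] :
    IsProbabilityMeasure (unifFin α) :=
  ⟨by
    rw [unifFin, Measure.smul_apply, Measure.count_univ, smul_eq_mul, ENat.card_eq_coe_fintype_card]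
    simp [ENNReal.inv_mul_cancel]⟩

/-- A factor of a bounded model. -/
def Nice {K : ℕ} (c : ℝ) (θ : Factor K) : Prop :=
  θ.1 = 1 ∧ |θ.2.1| ≤ c ∧ ∀ j s, |θ.2.2 j s| ≤ 1

variable {K n : ℕ} {c H : ℝ}

theorem ae_nice {P : Measure (Factor K)} {Q : Measure ℝ} (hM : IsBoundedModel P Q c H) :
    ∀ᵐ θ ∂P, Nice c θ := by
  filter_upwards [hM.scale_one, hM.b_le, hM.toIsModel.bounds] with θ h1 h2 h3
  exact ⟨h1, h2, h3.2.2⟩

theorem c_nonneg {P : Measure (Factor K)} {Q : Measure ℝ} (hM : IsBoundedModel P Q c H) :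
    0 ≤ c := by
  have := hM.toIsModel.prob_factor
  obtain ⟨θ, hθ⟩ := hM.b_le.exists
  exact (abs_nonneg _).trans hθ

theorem H_nonneg {P : Measure (Factor K)} {Q : Measure ℝ} (hM : IsBoundedModel P Q c H) :
    0 ≤ H := by
  have := hM.toIsModel.prob_field
  obtain ⟨h, hh⟩ := hM.h_le.exists
  exact (abs_nonneg _).trans hh

theorem factorWeight_mem {θ : Factor K} (hθ : Nice c θ) (σ : Fin K → Bool) :
    1 - c ≤ factorWeight θ σ ∧ factorWeight θ σ ≤ 1 + c := by
  have h : |θ.2.1 * ∏ j, θ.2.2 j (σ j)| ≤ c := by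
    rw [abs_mul, Finset.abs_prod]
    exact (mul_le_of_le_one_right (abs_nonneg _) (Finset.prod_le_one (fun j _ => abs_nonneg _)
      fun j _ => hθ.2.2 j _)).trans hθ.2.1
  rw [abs_le] at h
  rw [factorWeight, hθ.1, one_mul]
  exact ⟨by linarith [h.1], by linarith [h.2]⟩

theorem spin_cases (s : Bool) : spin s = 1 ∨ spin s = -1 := by cases s <;> simp [spin]

theorem abs_spin (s : Bool) : |spin s| = 1 := by cases s <;> simp [spin]

theorem msgWeight_nonneg {y : ℝ} (hy : |y| ≤ 1) (s : Bool) : 0 ≤ (1 + y * spin s) / 2 := by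
  have := abs_le.1 hy
  rcases spin_cases s with h | h <;> rw [h] <;> linarith

/-- The law of a clause with one pinned position. -/
theorem sum_pinned (ℓ : Fin K) (ε : Bool) (y : Fin K → ℝ) :
    (∑ σ : Fin K → Bool, if σ ℓ = ε then
      ∏ j ∈ Finset.univ.erase ℓ, (1 + y j * spin (σ j)) / 2 else 0) = 1 := by
  let g : Fin K → Bool → ℝ := fun j s =>
    if j = ℓ then (if s = ε then 1 else 0) else (1 + y j * spin s) / 2
  have h1 : ∀ σ : Fin K → Bool, (if σ ℓ = ε then
      ∏ j ∈ Finset.univ.erase ℓ, (1 + y j * spin (σ j)) / 2 else 0) = ∏ j, g j (σ j) := by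
    intro σ
    rw [← Finset.mul_prod_erase Finset.univ _ (Finset.mem_univ ℓ)]
    have e : ∏ j ∈ Finset.univ.erase ℓ, g j (σ j) =
        ∏ j ∈ Finset.univ.erase ℓ, (1 + y j * spin (σ j)) / 2 :=
      Finset.prod_congr rfl fun j hj => if_neg (Finset.ne_of_mem_erase hj)
    rw [e]
    simp [g]
  simp only [h1]
  rw [← Fintype.prod_sum]
  refine Finset.prod_eq_one fun j _ => ?_
  by_cases h : j = ℓ
  · simp [g, h]
  · simp [g, h, spin]; ring

theorem sum_free (y : Fin K → ℝ) :
    (∑ σ : Fin K → Bool, ∏ j, (1 + y j * spin (σ j)) / 2) = 1 := by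
  rw [← Fintype.prod_sum fun j s => (1 + y j * spin s) / 2]
  refine Finset.prod_eq_one fun j _ => ?_
  simp [spin]; ring

theorem pinned_mem {θ : Factor K} (hθ : Nice c θ) (ℓ : Fin K) (ε : Bool) {y : Fin K → ℝ}
    (hy : ∀ j, |y j| ≤ 1) :
    (∑ σ : Fin K → Bool, if σ ℓ = ε then
        factorWeight θ σ * ∏ j ∈ Finset.univ.erase ℓ, (1 + y j * spin (σ j)) / 2 else 0)
      ∈ Set.Icc (1 - c) (1 + c) := by
  have key : ∀ a : ℝ, (∑ σ : Fin K → Bool, if σ ℓ = ε then
        a * ∏ j ∈ Finset.univ.erase ℓ, (1 + y j * spin (σ j)) / 2 else 0) = a := by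
    intro a
    conv_rhs => rw [← mul_one a, ← sum_pinned ℓ ε y, Finset.mul_sum]
    exact Finset.sum_congr rfl fun σ _ => by split_ifs <;> ring
  constructor
  · rw [← key (1 - c)]
    refine Finset.sum_le_sum fun σ _ => ?_
    split_ifs
    · exact mul_le_mul_of_nonneg_right (factorWeight_mem hθ σ).1
        (Finset.prod_nonneg fun j _ => msgWeight_nonneg (hy j) _)
    · exact le_rfl
  · conv_rhs => rw [← key (1 + c)]
    refine Finset.sum_le_sum fun σ _ => ?_
    split_ifs
    · exact mul_le_mul_of_nonneg_right (factorWeight_mem hθ σ).2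
        (Finset.prod_nonneg fun j _ => msgWeight_nonneg (hy j) _)
    · exact le_rfl

theorem free_mem {θ : Factor K} (hθ : Nice c θ) {y : Fin K → ℝ} (hy : ∀ j, |y j| ≤ 1) :
    (∑ σ : Fin K → Bool, factorWeight θ σ * ∏ j, (1 + y j * spin (σ j)) / 2)
      ∈ Set.Icc (1 - c) (1 + c) := by
  have key : ∀ a : ℝ, (∑ σ : Fin K → Bool, a * ∏ j, (1 + y j * spin (σ j)) / 2) = a :=
    fun a => by rw [← Finset.mul_sum, sum_free, mul_one]
  constructor
  · rw [← key (1 - c)]
    exact Finset.sum_le_sum fun σ _ => mul_le_mul_of_nonneg_right (factorWeight_mem hθ σ).1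
      (Finset.prod_nonneg fun j _ => msgWeight_nonneg (hy j) _)
  · conv_rhs => rw [← key (1 + c)]
    exact Finset.sum_le_sum fun σ _ => mul_le_mul_of_nonneg_right (factorWeight_mem hθ σ).2
      (Finset.prod_nonneg fun j _ => msgWeight_nonneg (hy j) _)

/-- The uniform bound for both terms with `n` clauses. -/
def termBound (c H : ℝ) (n : ℕ) : ℝ := 2 * Real.exp H * ((1 - c)⁻¹) ^ n

theorem termBound_pos (hc : c < 1) : 0 < termBound c H n := by
  have : 0 < (1 - c)⁻¹ := inv_pos.2 (by linarith)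
  unfold termBound
  positivity

theorem one_add_le_inv (hc0 : 0 ≤ c) (hc : c < 1) : 1 + c ≤ (1 - c)⁻¹ := by
  rw [inv_eq_one_div, le_div_iff₀ (by linarith)]
  nlinarith

theorem siteTerm_mem (hc0 : 0 ≤ c) (hc : c < 1) (_hH : 0 ≤ H) {d : Fin n → Factor K × Fin K}
    {h : ℝ} (hd : ∀ k, Nice c (d k).1) (hh : |h| ≤ H) {y : Fin n × Fin K → ℝ}
    (hy : ∀ i, |y i| ≤ 1) :
    siteTerm d h y ∈ Set.Icc (termBound c H n)⁻¹ (termBound c H n) := by
  obtain ⟨hh1, hh2⟩ := abs_le.1 hh
  have hp : ∀ ε : Bool, (∏ k, ∑ σ : Fin K → Bool, if σ (d k).2 = ε then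
      factorWeight (d k).1 σ * ∏ j ∈ Finset.univ.erase (d k).2, (1 + y (k, j) * spin (σ j)) / 2
      else 0) ∈ Set.Icc ((1 - c) ^ n) ((1 + c) ^ n) := by
    intro ε
    have hm := fun k => pinned_mem (hd k) (d k).2 ε (y := fun j => y (k, j)) (fun j => hy _)
    constructor
    · calc (1 - c) ^ n = ∏ _k : Fin n, (1 - c) := by simp
        _ ≤ _ := Finset.prod_le_prod (fun _ _ => by linarith) fun k _ => (hm k).1
    · calc _ ≤ ∏ _k : Fin n, (1 + c) :=
            Finset.prod_le_prod (fun k _ => le_trans (by linarith) (hm k).1) fun k _ => (hm k).2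
        _ = (1 + c) ^ n := by simp
  have he : ∀ ε : Bool, Real.exp (-H) ≤ Real.exp (h * spin ε) ∧
      Real.exp (h * spin ε) ≤ Real.exp H := fun ε => by
    rcases spin_cases ε with h | h <;>
      exact ⟨Real.exp_le_exp.2 (by rw [h]; linarith), Real.exp_le_exp.2 (by rw [h]; linarith)⟩
  have hcp : 0 ≤ 1 - c := by linarith
  constructor
  · have h0 : (termBound c H n)⁻¹ = Real.exp (-H) * (1 - c) ^ n / 2 := by
      rw [termBound, inv_pow, Real.exp_neg]
      field_simp
    have h1 : ∀ ε : Bool, Real.exp (-H) * (1 - c) ^ n ≤ _ := fun ε =>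
      mul_le_mul (he ε).1 (hp ε).1 (pow_nonneg hcp n) (Real.exp_pos (h * spin ε)).le
    rw [h0, siteTerm, Fintype.sum_bool]
    linarith [h1 true, h1 false, mul_nonneg (Real.exp_pos (-H)).le (pow_nonneg hcp n)]
  · have h1 : ∀ ε : Bool, _ ≤ Real.exp H * ((1 - c)⁻¹) ^ n := fun ε =>
      mul_le_mul (he ε).2 ((hp ε).2.trans (pow_le_pow_left₀ (by linarith)
        (one_add_le_inv hc0 hc) n)) ((pow_nonneg hcp n).trans (hp ε).1) (Real.exp_pos H).le
    rw [siteTerm, Fintype.sum_bool, termBound]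
    linarith [h1 true, h1 false]

theorem edgeTerm_mem (hc0 : 0 ≤ c) (hc : c < 1) (hH : 0 ≤ H) {d : Fin n → Factor K}
    (hd : ∀ k, Nice c (d k)) {y : Fin n × Fin K → ℝ} (hy : ∀ i, |y i| ≤ 1) :
    edgeTerm d y ∈ Set.Icc (termBound c H n)⁻¹ (termBound c H n) := by
  have hm := fun k => free_mem (hd k) (y := fun j => y (k, j)) (fun j => hy _)
  have hcp : 0 < 1 - c := by linarith
  have h2 : (1 : ℝ) ≤ 2 * Real.exp H := by nlinarith [Real.one_le_exp hH]
  have h3 : (0 : ℝ) ≤ ((1 - c)⁻¹) ^ n := by positivity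
  constructor
  · have h0 : (termBound c H n)⁻¹ ≤ (1 - c) ^ n := by
      rw [termBound, mul_inv, inv_pow, inv_inv]
      exact mul_le_of_le_one_left (by positivity) (inv_le_one_of_one_le₀ h2)
    calc (termBound c H n)⁻¹ ≤ ∏ _k : Fin n, (1 - c) := by simpa using h0
      _ ≤ _ := Finset.prod_le_prod (fun _ _ => by linarith) fun k _ => (hm k).1
  · calc edgeTerm d y ≤ ∏ _k : Fin n, (1 - c)⁻¹ :=
          Finset.prod_le_prod (fun k _ => le_trans (by linarith) (hm k).1) fun k _ =>
            (hm k).2.trans (one_add_le_inv hc0 hc)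
      _ = ((1 - c)⁻¹) ^ n := by simp
      _ ≤ termBound c H n := le_mul_of_one_le_left h3 h2

theorem abs_log_le {C x : ℝ} (hC : 0 < C) (hx : x ∈ Set.Icc C⁻¹ C) : |Real.log x| ≤ Real.log C := by
  have hx0 : 0 < x := lt_of_lt_of_le (inv_pos.2 hC) hx.1
  refine abs_le.2 ⟨?_, Real.log_le_log hx0 hx.2⟩
  rw [← Real.log_inv]
  exact Real.log_le_log (inv_pos.2 hC) hx.1

theorem log_termBound (hc : c < 1) :
    Real.log (termBound c H n) = Real.log 2 + H + n * (-Real.log (1 - c)) := by
  have h1 : (0 : ℝ) < (1 - c)⁻¹ := inv_pos.2 (by linarith)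
  rw [termBound, Real.log_mul (by positivity) (by positivity),
    Real.log_mul (by norm_num) (by positivity), Real.log_exp, Real.log_pow, Real.log_inv]

theorem integrable_natCast_poisson (r : ℝ≥0) :
    Integrable (fun n : ℕ => (n : ℝ)) (poissonMeasure r) := by
  rw [integrable_poissonMeasure_iff]
  refine Summable.of_nonneg_of_le (fun n => by positivity) (fun n => ?_)
    ((Real.summable_pow_div_factorial (2 * (r : ℝ))).mul_left (Real.exp (-r)))
  rw [Real.norm_natCast, mul_pow]
  have h : (n : ℝ) ≤ (2 : ℝ) ^ n := by exact_mod_cast Nat.lt_two_pow_self.le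
  have h0 : (0 : ℝ) ≤ Real.exp (-r) * (r : ℝ) ^ n / n.factorial := by positivity
  refine (mul_le_mul_of_nonneg_left h h0).trans_eq ?_
  ring

theorem integrable_log_termBound (hc : c < 1) (r : ℝ≥0) :
    Integrable (fun n => Real.log (termBound c H n)) (poissonMeasure r) := by
  simp only [log_termBound hc]
  exact (integrable_const _).add ((integrable_natCast_poisson r).mul_const _)

/-! ### Multilinear expansion -/

/-- Expansion into monomials with `∑ |coefficient| ≤ B`. -/
def HasExpansion {ι : Type*} [Fintype ι] (F : (ι → ℝ) → ℝ) (B : ℝ) : Prop :=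
  ∃ coef : Finset ι → ℝ, (∑ R, |coef R|) ≤ B ∧ ∀ y, F y = ∑ R, coef R * ∏ i ∈ R, y i

theorem hasExpansion_sum_prod {ι T : Type*} [Fintype ι] [Fintype T] (d : T → ℝ)
    (E : Finset ι) (s : T → ι → ℝ) (hs : ∀ t i, |s t i| ≤ 1) :
    HasExpansion (fun y : ι → ℝ => ∑ t, d t * ∏ i ∈ E, (1 + y i * s t i) / 2)
      (Fintype.card (Finset ι) * ∑ t, |d t|) := by
  classical
  let e : T → Finset ι → ℝ := fun t R =>
    if R ⊆ E then (∏ i ∈ R, s t i / 2) * ∏ _i ∈ E \ R, (1 / 2 : ℝ) else 0
  have he : ∀ t R, |e t R| ≤ 1 := by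
    intro t R
    simp only [e]
    split_ifs
    · rw [abs_mul, Finset.abs_prod, Finset.abs_prod]
      refine mul_le_one₀ (Finset.prod_le_one (fun i _ => abs_nonneg _) fun i _ => ?_)
        (Finset.prod_nonneg fun i _ => abs_nonneg _)
        (Finset.prod_le_one (fun i _ => abs_nonneg _) fun i _ => by norm_num)
      rw [abs_div, abs_two]
      linarith [hs t i]
    · simp
  refine ⟨fun R => ∑ t, d t * e t R, ?_, fun y => ?_⟩
  · calc ∑ R, |∑ t, d t * e t R| ≤ ∑ _R : Finset ι, ∑ t, |d t| :=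
          Finset.sum_le_sum fun R _ => (Finset.abs_sum_le_sum_abs _ _).trans
            (Finset.sum_le_sum fun t _ => by
              rw [abs_mul]; exact mul_le_of_le_one_right (abs_nonneg _) (he t R))
      _ = _ := by simp
  · simp only [Finset.sum_mul]
    rw [Finset.sum_comm]
    refine Finset.sum_congr rfl fun t _ => ?_
    have hsplit : ∀ i, (1 + y i * s t i) / 2 = y i * s t i / 2 + 1 / 2 := fun i => by ring
    simp only [hsplit]
    rw [Finset.prod_add, Finset.mul_sum]
    rw [← Finset.sum_subset (Finset.subset_univ E.powerset) (fun R _ hR => by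
      simp [e, Finset.mem_powerset.not.1 hR])]
    refine Finset.sum_congr rfl fun R hR => ?_
    simp only [e, Finset.mem_powerset.1 hR, if_true]
    have : ∏ i ∈ R, (y i * s t i / 2) = (∏ i ∈ R, s t i / 2) * ∏ i ∈ R, y i := by
      rw [← Finset.prod_mul_distrib]
      exact Finset.prod_congr rfl fun i _ => by ring
    rw [this]; ring

theorem HasExpansion.mono {ι : Type*} [Fintype ι] {F : (ι → ℝ) → ℝ} {B B' : ℝ}
    (h : HasExpansion F B) (hB : B ≤ B') : HasExpansion F B' :=
  h.imp fun _ h => ⟨h.1.trans hB, h.2⟩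

/-- The bound on the coefficients. -/
def coefBound (K : ℕ) (c H : ℝ) (n : ℕ) : ℝ :=
  Fintype.card (Finset (Fin n × Fin K)) *
    (2 * Fintype.card (Fin n → Fin K → Bool) * (Real.exp H * (1 + c) ^ n))

theorem siteTerm_expansion (hc0 : 0 ≤ c) (hc : c < 1) {d : Fin n → Factor K × Fin K} {h : ℝ}
    (hd : ∀ k, Nice c (d k).1) (hh : |h| ≤ H) :
    HasExpansion (fun y => siteTerm d h y) (coefBound K c H n) := by
  classical
  let dd : Bool × (Fin n → Fin K → Bool) → ℝ := fun t => Real.exp (h * spin t.1) *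
    ∏ k, if t.2 k (d k).2 = t.1 then factorWeight (d k).1 (t.2 k) else 0
  let E : Finset (Fin n × Fin K) := Finset.univ.filter fun q => q.2 ≠ (d q.1).2
  have hrep : ∀ y, siteTerm d h y =
      ∑ t, dd t * ∏ q ∈ E, (1 + y q * spin (t.2 q.1 q.2)) / 2 := by
    intro y
    rw [siteTerm, Fintype.sum_prod_type]
    refine Finset.sum_congr rfl fun ε _ => ?_
    rw [Fintype.prod_sum, Finset.mul_sum]
    refine Finset.sum_congr rfl fun σ _ => ?_
    simp only [dd]
    rw [mul_assoc]
    congr 1
    rw [Finset.prod_filter, Fintype.prod_prod_type, ← Finset.prod_mul_distrib]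
    refine Finset.prod_congr rfl fun k _ => ?_
    dsimp only
    rw [← Finset.prod_filter, Finset.filter_ne']
    split_ifs <;> simp
  have hB := hasExpansion_sum_prod dd E (fun t q => spin (t.2 q.1 q.2))
    (fun t q => (abs_spin _).le)
  simp only [← hrep] at hB
  refine hB.mono (mul_le_mul_of_nonneg_left ?_ (Nat.cast_nonneg _))
  have hd' : ∀ t, |dd t| ≤ Real.exp H * (1 + c) ^ n := by
    intro t
    simp only [dd]
    rw [abs_mul, Finset.abs_prod, abs_of_pos (Real.exp_pos _)]
    refine mul_le_mul (Real.exp_le_exp.2 ?_) ?_ (Finset.prod_nonneg fun k _ => abs_nonneg _)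
      (Real.exp_pos _).le
    · refine (le_abs_self _).trans ?_
      rwa [abs_mul, abs_spin, mul_one]
    · calc _ ≤ ∏ _k : Fin n, (1 + c) :=
            Finset.prod_le_prod (fun k _ => abs_nonneg _) fun k _ => by
              split_ifs
              · have := factorWeight_mem (hd k) (t.2 k)
                exact abs_le.2 ⟨by linarith [this.1], this.2⟩
              · simp; linarith
        _ = _ := by simp
  refine (Finset.sum_le_sum fun t _ => hd' t).trans_eq ?_
  simp only [Finset.sum_const, Finset.card_univ, Fintype.card_prod, Fintype.card_bool, nsmul_eq_mul]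
  push_cast
  ring

theorem edgeTerm_expansion (hc0 : 0 ≤ c) (_hc : c < 1) (hH : 0 ≤ H) {d : Fin n → Factor K}
    (hd : ∀ k, Nice c (d k)) :
    HasExpansion (fun y => edgeTerm d y) (coefBound K c H n) := by
  classical
  let dd : (Fin n → Fin K → Bool) → ℝ := fun t => ∏ k, factorWeight (d k) (t k)
  have hrep : ∀ y, edgeTerm d y =
      ∑ t, dd t * ∏ q ∈ (Finset.univ : Finset (Fin n × Fin K)),
        (1 + y q * spin (t q.1 q.2)) / 2 := by
    intro y
    rw [edgeTerm, Fintype.prod_sum]
    refine Finset.sum_congr rfl fun σ _ => ?_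
    simp only [dd]
    rw [Fintype.prod_prod_type, ← Finset.prod_mul_distrib]
  have hB := hasExpansion_sum_prod dd Finset.univ
    (fun t (q : Fin n × Fin K) => spin (t q.1 q.2)) (fun t q => (abs_spin _).le)
  simp only [← hrep] at hB
  refine hB.mono (mul_le_mul_of_nonneg_left ?_ (Nat.cast_nonneg _))
  have hd' : ∀ t, |dd t| ≤ (1 + c) ^ n := by
    intro t
    simp only [dd]
    rw [Finset.abs_prod]
    calc _ ≤ ∏ _k : Fin n, (1 + c) :=
          Finset.prod_le_prod (fun k _ => abs_nonneg _) fun k _ => by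
            have := factorWeight_mem (hd k) (t k)
            exact abs_le.2 ⟨by linarith [this.1], this.2⟩
      _ = _ := by simp
  refine (Finset.sum_le_sum fun t _ => hd' t).trans ?_
  rw [Finset.sum_const, Finset.card_univ, nsmul_eq_mul]
  have h1 : (1 : ℝ) ≤ Real.exp H := Real.one_le_exp hH
  have h2 : 0 ≤ (Fintype.card (Fin n → Fin K → Bool) : ℝ) * (1 + c) ^ n :=
    mul_nonneg (Nat.cast_nonneg _) (pow_nonneg (by linarith) n)
  nlinarith

/-! ### Measurability -/

theorem measurable_factorWeight (σ : Fin K → Bool) :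
    Measurable fun θ : Factor K => factorWeight θ σ := by
  unfold factorWeight
  fun_prop

theorem measurable_siteTerm :
    Measurable fun p : ((Fin n → Factor K × Fin K) × ℝ) × (Fin n × Fin K → ℝ) =>
      siteTerm p.1.1 p.1.2 p.2 := by
  classical
  unfold siteTerm
  refine Finset.measurable_sum _ fun ε _ => ?_
  refine Measurable.mul (by fun_prop) (Finset.measurable_prod _ fun k _ =>
    Finset.measurable_sum _ fun σ _ => ?_)
  have hl : Measurable fun p : ((Fin n → Factor K × Fin K) × ℝ) × (Fin n × Fin K → ℝ) =>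
      (p.1.1 k).2 := by fun_prop
  have hm : Measurable fun q : ((Fin n → Factor K × Fin K) × ℝ) × (Fin n × Fin K → ℝ) =>
      factorWeight (q.1.1 k).1 σ := (measurable_factorWeight σ).comp (by fun_prop)
  refine Measurable.ite ?_ ?_ measurable_const
  · exact hl (MeasurableSet.of_discrete (s := {l : Fin K | σ l = ε}))
  · refine hm.mul ?_
    have he : ∀ l : Fin K, Measurable fun q : ((Fin n → Factor K × Fin K) × ℝ) ×
        (Fin n × Fin K → ℝ) => ∏ j ∈ Finset.univ.erase l, (1 + q.2 (k, j) * spin (σ j)) / 2 :=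
      fun l => Finset.measurable_prod _ fun j _ => by fun_prop
    exact (measurable_from_prod_countable_left (f := fun q : (((Fin n → Factor K × Fin K) × ℝ) ×
      (Fin n × Fin K → ℝ)) × Fin K => ∏ j ∈ Finset.univ.erase q.2,
        (1 + q.1.2 (k, j) * spin (σ j)) / 2) he).comp (measurable_id.prodMk hl)

theorem measurable_edgeTerm :
    Measurable fun p : (Fin n → Factor K) × (Fin n × Fin K → ℝ) => edgeTerm p.1 p.2 := by
  unfold edgeTerm
  refine Finset.measurable_prod _ fun k _ => Finset.measurable_sum _ fun σ _ => ?_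
  exact ((measurable_factorWeight σ).comp (by fun_prop)).mul (by fun_prop)

theorem msgSite_injective : Function.Injective (@msgSite n K) := fun a b h =>
  finProdFinEquiv.injective (Fin.ext h)

end Vale.Agent.P168.States
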