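import Vale.Agent.P168.States.PiTools

/-! The random state given by a finite cascade. -/

open MeasureTheory ProbabilityTheory Filter
open scoped BigOperators NNReal ENNReal

noncomputable section

namespace Vale.Agent.P168.States

open Vale.Agent.P168

variable {β : Type}

/-- The raw weight of a leaf. -/
def leafWeight : (r : ℕ) → (Fin r → ℝ) → (n : Fin r → ℕ) → CascTree β r n →
    ((p : Fin r) → Fin (n p)) → ℝ
  | 0, _, _, _, _ => 1
  | r + 1, m, n, t, a => |((n 0 : ℝ) * (t (a 0)).1) ^ (-(1 / m 0))| *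
      leafWeight r (Fin.tail m) (Fin.tail n) (t (a 0)).2.2 (fun p => a p.succ)

/-- The marks along the branch of a leaf. -/
def leafMark : (r : ℕ) → (n : Fin r → ℕ) → CascTree β r n →
    ((p : Fin r) → Fin (n p)) → Fin r → β
  | 0, _, _, _ => Fin.elim0
  | r + 1, n, t, a =>
      Fin.cons (t (a 0)).2.1 (leafMark r (Fin.tail n) (t (a 0)).2.2 (fun p => a p.succ))

/-- All uniform variables of the tree are positive. -/
def CascPos : (r : ℕ) → (n : Fin r → ℕ) → CascTree β r n → Prop
  | 0, _, _ => True
  | r + 1, n, t => ∀ k : Fin (n 0), 0 < (t k).1 ∧ CascPos r (Fin.tail n) (t k).2.2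

theorem leafWeight_nonneg : ∀ (r : ℕ) (m : Fin r → ℝ) (n : Fin r → ℕ) (t : CascTree β r n)
    (a : (p : Fin r) → Fin (n p)), 0 ≤ leafWeight r m n t a := by
  intro r
  induction r with
  | zero => intros; simp [leafWeight]
  | succ r ih => intro m n t a; exact mul_nonneg (abs_nonneg _) (ih _ _ _ _)

theorem leafWeight_pos : ∀ (r : ℕ) (m : Fin r → ℝ) (n : Fin r → ℕ) (t : CascTree β r n),
    CascPos r n t → ∀ a, 0 < leafWeight r m n t a := by
  intro r
  induction r with
  | zero => intros; simp [leafWeight]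
  | succ r ih =>
    intro m n t ht a
    refine mul_pos (abs_pos.2 (ne_of_gt (Real.rpow_pos_of_pos (mul_pos ?_ (ht _).1) _))) ?_
    · exact_mod_cast (a 0).pos
    · exact ih _ _ _ (ht _).2 _

theorem cascSum_eq : ∀ (r : ℕ) (m : Fin r → ℝ) (n : Fin r → ℕ) (t : CascTree β r n),
    CascPos r n t → ∀ Y : (Fin r → β) → ℝ,
      cascSum r m n Y t =
        ∑ a : (p : Fin r) → Fin (n p), leafWeight r m n t a * Y (leafMark r n t a) := by
  intro r
  induction r with
  | zero => intro m n t _ Y; simp [cascSum, leafWeight, leafMark]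
  | succ r ih =>
    intro m n t ht Y
    simp only [cascSum]
    rw [← (Fin.consEquiv fun p => Fin (n p)).sum_comp, Fintype.sum_prod_type]
    refine Finset.sum_congr rfl fun k _ => ?_
    rw [ih (Fin.tail m) (Fin.tail n) (t k).2.2 (ht k).2, Finset.mul_sum]
    refine Finset.sum_congr rfl fun a _ => ?_
    have hpos : 0 < (n 0 : ℝ) * (t k).1 :=
      mul_pos (by exact_mod_cast k.pos) (ht k).1
    change _ = (|((n 0 : ℝ) * (t k).1) ^ (-(1 / m 0))| *
      leafWeight r (Fin.tail m) (Fin.tail n) (t k).2.2 a) *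
        Y (Fin.cons (t k).2.1 (leafMark r (Fin.tail n) (t k).2.2 a))
    rw [abs_of_pos (Real.rpow_pos_of_pos hpos _)]
    exact (mul_assoc _ _ _).symm

/-- Normalised weights of the leaves. -/
def cascWeight (r : ℕ) (m : Fin r → ℝ) (n : Fin r → ℕ) (t : CascTree β r n)
    (a : (p : Fin r) → Fin (n p)) : ℝ :=
  if 0 < ∑ b, leafWeight r m n t b then leafWeight r m n t a / ∑ b, leafWeight r m n t b
  else 1 / (Fintype.card ((p : Fin r) → Fin (n p)) : ℝ)

theorem cascWeight_nonneg (r : ℕ) (m : Fin r → ℝ) (n : Fin r → ℕ) (t : CascTree β r n)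
    (a : (p : Fin r) → Fin (n p)) : 0 ≤ cascWeight r m n t a := by
  unfold cascWeight
  split_ifs with h
  · exact div_nonneg (leafWeight_nonneg _ _ _ _ _) h.le
  · positivity

theorem cascWeight_sum (r : ℕ) (m : Fin r → ℝ) (n : Fin r → ℕ) (hn : ∀ p, 1 ≤ n p)
    (t : CascTree β r n) : ∑ a, cascWeight r m n t a = 1 := by
  unfold cascWeight
  split_ifs with h
  · rw [← Finset.sum_div, div_self h.ne']
  · have : Nonempty ((p : Fin r) → Fin (n p)) := ⟨fun p => ⟨0, hn p⟩⟩
    rw [Finset.sum_const, Finset.card_univ, nsmul_eq_mul, mul_one_div,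
      div_self (Nat.cast_ne_zero.2 Fintype.card_ne_zero)]

theorem cascMean_eq (r : ℕ) (m : Fin r → ℝ) (n : Fin r → ℕ) (hn : ∀ p, 1 ≤ n p)
    (t : CascTree β r n) (ht : CascPos r n t) (Y : (Fin r → β) → ℝ) :
    cascMean m n Y t = ∑ a, cascWeight r m n t a * Y (leafMark r n t a) := by
  have : Nonempty ((p : Fin r) → Fin (n p)) := ⟨fun p => ⟨0, hn p⟩⟩
  have hpos : 0 < ∑ b, leafWeight r m n t b :=
    Finset.sum_pos (fun a _ => leafWeight_pos r m n t ht a) Finset.univ_nonempty
  rw [cascMean, cascSum_eq r m n t ht, cascSum_eq r m n t ht]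
  simp only [mul_one]
  rw [Finset.sum_div]
  refine Finset.sum_congr rfl fun a _ => ?_
  rw [cascWeight, if_pos hpos]
  ring

variable [MeasurableSpace β]

instance isProb_cascLaw (ν : Measure β) [IsProbabilityMeasure ν] :
    ∀ (r : ℕ) (n : Fin r → ℕ), IsProbabilityMeasure (cascLaw ν r n) := by
  intro r
  induction r with
  | zero => intro n; exact inferInstanceAs (IsProbabilityMeasure (Measure.dirac ()))
  | succ r ih =>
    intro n
    have := ih (Fin.tail n)
    exact inferInstanceAs (IsProbabilityMeasure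
      (Measure.pi fun _ : Fin (n 0) => unif.prod (ν.prod (cascLaw ν r (Fin.tail n)))))

theorem ae_unif_pos : ∀ᵐ u ∂unif, (0 : ℝ) < u := by
  have h1 : ∀ᵐ u ∂unif, u ∈ Set.Icc (0 : ℝ) 1 := ae_restrict_mem measurableSet_Icc
  have h2 : ∀ᵐ u ∂unif, u ≠ (0 : ℝ) := ae_restrict_of_ae (by simp [ae_iff])
  filter_upwards [h1, h2] with u hu hne
  exact lt_of_le_of_ne hu.1 hne.symm

theorem ae_cascPos (ν : Measure β) [IsProbabilityMeasure ν] :
    ∀ (r : ℕ) (n : Fin r → ℕ), ∀ᵐ t ∂cascLaw ν r n, CascPos r n t := by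
  intro r
  induction r with
  | zero => intro n; exact ae_of_all _ fun _ => trivial
  | succ r ih =>
    intro n
    have := isProb_cascLaw ν r (Fin.tail n)
    have h : ∀ᵐ q ∂unif.prod (ν.prod (cascLaw ν r (Fin.tail n))),
        0 < q.1 ∧ CascPos r (Fin.tail n) q.2.2 :=
      (Measure.quasiMeasurePreserving_fst.ae ae_unif_pos).and
        (Measure.quasiMeasurePreserving_snd.ae (Measure.quasiMeasurePreserving_snd.ae (ih _)))
    exact eventually_all.2 fun k =>
      (Measure.tendsto_eval_ae_ae
        (μ := fun _ : Fin (n 0) => unif.prod (ν.prod (cascLaw ν r (Fin.tail n)))) (i := k)).eventually h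

theorem measurable_leafWeight : ∀ (r : ℕ) (m : Fin r → ℝ) (n : Fin r → ℕ)
    (a : (p : Fin r) → Fin (n p)),
    Measurable fun t : CascTree β r n => leafWeight r m n t a := by
  intro r
  induction r with
  | zero => intro m n a; exact measurable_const
  | succ r ih =>
    intro m n a
    have h : Measurable fun t : Fin (n 0) → ℝ × β × CascTree β r (Fin.tail n) => t (a 0) :=
      measurable_pi_apply _
    exact ((measurable_const.mul h.fst).pow_const _).abs.mul
      ((ih (Fin.tail m) (Fin.tail n) fun p => a p.succ).comp h.snd.snd)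

theorem measurable_leafMark : ∀ (r : ℕ) (n : Fin r → ℕ) (a : (p : Fin r) → Fin (n p)),
    Measurable fun t : CascTree β r n => leafMark r n t a := by
  intro r
  induction r with
  | zero => intro n a; exact measurable_const
  | succ r ih =>
    intro n a
    have h : Measurable fun t : Fin (n 0) → ℝ × β × CascTree β r (Fin.tail n) => t (a 0) :=
      measurable_pi_apply _
    exact measurable_cons.comp
      (h.snd.fst.prodMk ((ih (Fin.tail n) fun p => a p.succ).comp h.snd.snd))

theorem measurable_cascWeight (r : ℕ) (m : Fin r → ℝ) (n : Fin r → ℕ)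
    (a : (p : Fin r) → Fin (n p)) :
    Measurable fun t : CascTree β r n => cascWeight r m n t a := by
  have hs : Measurable fun t : CascTree β r n => ∑ b, leafWeight r m n t b :=
    Finset.measurable_sum _ fun b _ => measurable_leafWeight r m n b
  exact Measurable.ite (measurableSet_lt measurable_const hs)
    ((measurable_leafWeight r m n a).div hs) measurable_const

/-- The random state of a finite cascade with messages given by `x`. -/
def cascState {r : ℕ} (m : Fin r → ℝ) (x : (Fin (r + 1) → ℝ) → ℝ) (n : Fin r → ℕ) :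
    RandomState where
  Ω := (ℕ → ℝ) × CascTree (ℕ → ℝ) r n
  α := (p : Fin r) → Fin (n p)
  mΩ := inferInstance
  fα := inferInstance
  law := siteLaw.prod (cascLaw siteLaw r n)
  w := fun ω a => cascWeight r m n ω.2 a
  mag := fun ω a i => x (Fin.cons (ω.1 i) fun p => leafMark r n ω.2 a p i)

theorem measurable_site_message {r : ℕ} {x : (Fin (r + 1) → ℝ) → ℝ} (hx : Measurable x) (i : ℕ) :
    Measurable fun q : (ℕ → ℝ) × (Fin r → ℕ → ℝ) =>
      x (Fin.cons (q.1 i) fun p => q.2 p i) :=
  hx.comp (measurable_cons.comp (((measurable_pi_apply i).comp measurable_fst).prodMk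
    (measurable_pi_lambda _ fun p =>
      ((measurable_pi_apply i).comp ((measurable_pi_apply p).comp measurable_snd)))))

theorem cascState_isGood {r : ℕ} {m : Fin r → ℝ} {x : (Fin (r + 1) → ℝ) → ℝ}
    (hx : IsTrial m x) {n : Fin r → ℕ} (hn : ∀ p, 1 ≤ n p) : (cascState m x n).IsGood where
  prob := inferInstanceAs (IsProbabilityMeasure (siteLaw.prod (cascLaw siteLaw r n)))
  meas_w a := (measurable_cascWeight r m n a).comp measurable_snd
  meas_mag a i := (measurable_site_message hx.measurable i).comp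
    (measurable_fst.prodMk ((measurable_leafMark r n a).comp measurable_snd))
  nonneg ω a := cascWeight_nonneg _ _ _ _ _
  sum_one ω := cascWeight_sum _ _ _ hn _
  bounded ω a i := hx.bounded _

end Vale.Agent.P168.States
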