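import Vale.Agent.P168.States.Basic

/-! Continuity of the cavity functional in the moments. -/

open MeasureTheory ProbabilityTheory Filter
open scoped BigOperators NNReal ENNReal

noncomputable section

namespace Vale.Agent.P168.States

open Vale.Agent.P168

variable {K n : ℕ} {c H : ℝ}

/-- The average of a function of the messages in a random state. -/
def stateAvg (S : RandomState) (F : (Fin n × Fin K → ℝ) → ℝ) (ω : S.Ω) : ℝ :=
  ∑ a, S.w ω a * F fun i => S.mag ω a (msgSite i)

theorem stateAvg_mem {S : RandomState} (hS : S.IsGood) {F : (Fin n × Fin K → ℝ) → ℝ} {lo hi : ℝ}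
    (hF : ∀ y, (∀ i, |y i| ≤ 1) → F y ∈ Set.Icc lo hi) (ω : S.Ω) :
    stateAvg S F ω ∈ Set.Icc lo hi := by
  have h := fun a => hF (fun i => S.mag ω a (msgSite i)) fun i => hS.bounded ω a _
  constructor
  · calc lo = ∑ a, S.w ω a * lo := by rw [← Finset.sum_mul, hS.sum_one ω, one_mul]
      _ ≤ _ := Finset.sum_le_sum fun a _ => mul_le_mul_of_nonneg_left (h a).1 (hS.nonneg ω a)
  · calc stateAvg S F ω ≤ ∑ a, S.w ω a * hi :=
          Finset.sum_le_sum fun a _ => mul_le_mul_of_nonneg_left (h a).2 (hS.nonneg ω a)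
      _ = hi := by rw [← Finset.sum_mul, hS.sum_one ω, one_mul]

theorem measurable_stateAvg_comp {X : Type*} [MeasurableSpace X] {S : RandomState}
    (hS : S.IsGood) {F : X → (Fin n × Fin K → ℝ) → ℝ}
    (hF : Measurable fun p : X × (Fin n × Fin K → ℝ) => F p.1 p.2) :
    Measurable fun p : X × S.Ω => stateAvg S (F p.1) p.2 := by
  refine Finset.measurable_sum _ fun a _ => ?_
  refine ((hS.meas_w a).comp measurable_snd).mul ?_
  exact hF.comp (measurable_fst.prodMk
    (measurable_pi_lambda _ fun i => (hS.meas_mag a _).comp measurable_snd))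

theorem integral_close {X : Type*} [MeasurableSpace X] {μ : Measure X} [IsProbabilityMeasure μ]
    {f g : X → ℝ} {L e : ℝ} (hf : Measurable f) (hg : Measurable g)
    (hfL : ∀ᵐ x ∂μ, |f x| ≤ L) (hgL : ∀ᵐ x ∂μ, |g x| ≤ L)
    (he : ∀ᵐ x ∂μ, |f x - g x| ≤ e) : |∫ x, f x ∂μ - ∫ x, g x ∂μ| ≤ e := by
  rw [← integral_sub (Integrable.of_bound hf.aestronglyMeasurable L hfL)
    (Integrable.of_bound hg.aestronglyMeasurable L hgL)]
  simpa using norm_integral_le_of_norm_le_const (μ := μ) (f := fun x => f x - g x) he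

theorem abs_integral_le_of_ae {X : Type*} [MeasurableSpace X] {μ : Measure X}
    [IsProbabilityMeasure μ] {f : X → ℝ} {L : ℝ} (hfL : ∀ᵐ x ∂μ, |f x| ≤ L) :
    |∫ x, f x ∂μ| ≤ L := by
  simpa using norm_integral_le_of_norm_le_const (μ := μ) (f := f) hfL

/-- The replica sets at the sites of the messages. -/
def expSets {k : ℕ} (R : Fin k → Finset (Fin n × Fin K)) (i : Fin (n * K)) : Finset (Fin k) :=
  Finset.univ.filter fun l => finProdFinEquiv.symm i ∈ R l

theorem integral_stateAvg_pow {S : RandomState} (hS : S.IsGood)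
    {F : (Fin n × Fin K → ℝ) → ℝ} (coef : Finset (Fin n × Fin K) → ℝ)
    (hF : ∀ y, F y = ∑ R, coef R * ∏ i ∈ R, y i) (k : ℕ) :
    ∫ ω, stateAvg S F ω ^ k ∂S.law =
      ∑ R : Fin k → Finset (Fin n × Fin K), (∏ l, coef (R l)) * S.moment (expSets R) := by
  classical
  have := hS.prob
  have hmono : ∀ ω a (R : Finset (Fin n × Fin K)),
      ∏ i ∈ R, S.mag ω a (msgSite i) =
        ∏ i : Fin (n * K), if finProdFinEquiv.symm i ∈ R then S.mag ω a i else 1 := by
    intro ω a R
    rw [Fintype.prod_equiv finProdFinEquiv.symm _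
      (fun q => if q ∈ R then S.mag ω a (msgSite q) else 1) (fun i => by
        simp only [msgSite, Equiv.apply_symm_apply])]
    rw [Finset.prod_ite_mem, Finset.univ_inter]
  have hpow : ∀ ω, stateAvg S F ω ^ k = ∑ R : Fin k → Finset (Fin n × Fin K), (∏ l, coef (R l)) *
      ∏ l : Fin k, ∑ a, S.w ω a *
        ∏ i : Fin (n * K), (if l ∈ expSets R i then S.mag ω a i else 1) := by
    intro ω
    have e : stateAvg S F ω = ∑ R, coef R *
        ∑ a, S.w ω a * ∏ i ∈ R, S.mag ω a (msgSite i) := by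
      simp only [stateAvg, hF, Finset.mul_sum]
      rw [Finset.sum_comm]
      exact Finset.sum_congr rfl fun R _ => Finset.sum_congr rfl fun a _ => by ring
    rw [← Fin.prod_const k, e, Fintype.prod_sum]
    refine Finset.sum_congr rfl fun R _ => ?_
    rw [Finset.prod_mul_distrib]
    congr 1
    refine Finset.prod_congr rfl fun l _ => Finset.sum_congr rfl fun a _ => ?_
    rw [hmono]
    congr 1
    exact Finset.prod_congr rfl fun i _ => if_congr (by simp [expSets]) rfl rfl
  simp only [hpow]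
  rw [integral_finsetSum]
  · refine Finset.sum_congr rfl fun R _ => ?_
    rw [integral_const_mul]
    rfl
  · intro R _
    refine Integrable.const_mul (Integrable.of_bound ?_ 1 (ae_of_all _ fun ω => ?_)) _
    · refine Measurable.aestronglyMeasurable (Finset.measurable_prod _ fun l _ =>
        Finset.measurable_sum _ fun a _ => (hS.meas_w a).mul
          (Finset.measurable_prod _ fun i _ => ?_))
      split_ifs
      · exact hS.meas_mag a _
      · exact measurable_const
    · rw [Real.norm_eq_abs, Finset.abs_prod]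
      refine Finset.prod_le_one (fun l _ => abs_nonneg _) fun l _ => ?_
      refine (Finset.abs_sum_le_sum_abs _ _).trans ?_
      refine le_trans ?_ (hS.sum_one ω).le
      refine Finset.sum_le_sum fun a _ => ?_
      rw [abs_mul, Finset.abs_prod, abs_of_nonneg (hS.nonneg ω a)]
      refine mul_le_of_le_one_right (hS.nonneg ω a) (Finset.prod_le_one (fun i _ => abs_nonneg _)
        fun i _ => ?_)
      split_ifs
      · exact hS.bounded ω a _
      · simp

/-- For fixed size, logarithms of averages are uniformly continuous in the moments. -/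
theorem log_avg_close (n K : ℕ) {C B η : ℝ} (hC : 0 < C) (hη : 0 < η) :
    ∃ (d : ℕ) (δ : ℝ), 0 < δ ∧ ∀ S S' : RandomState, S.IsGood → S'.IsGood →
      ∀ (M₀ n₀ : ℕ), n * K ≤ M₀ → d ≤ n₀ → MomentClose M₀ n₀ δ S.moment S'.moment →
      ∀ F : (Fin n × Fin K → ℝ) → ℝ, Measurable F →
        (∀ y, (∀ i, |y i| ≤ 1) → F y ∈ Set.Icc C⁻¹ C) → HasExpansion F B →
        |∫ ω, Real.log (stateAvg S F ω) ∂S.law - ∫ ω, Real.log (stateAvg S' F ω) ∂S'.law| ≤ η := by
  classical
  obtain ⟨p, hp⟩ := exists_polynomial_near_of_continuousOn C⁻¹ C Real.log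
    (Real.continuousOn_log.mono fun x hx => ne_of_gt (lt_of_lt_of_le (inv_pos.2 hC) hx.1))
    (η / 4) (by positivity)
  set B' := max B 0 with hB'
  set W := ∑ k ∈ Finset.range (p.natDegree + 1), |p.coeff k| * B' ^ k with hW
  have hW0 : 0 ≤ W := Finset.sum_nonneg fun k _ =>
    mul_nonneg (abs_nonneg _) (pow_nonneg (le_max_right _ _) _)
  refine ⟨p.natDegree, η / 2 / (W + 1), by positivity, ?_⟩
  intro S S' hS hS' M₀ n₀ hM hn hclose F hFm hF hexp
  obtain ⟨coef, hcoef, hrep⟩ := hexp
  set δ := η / 2 / (W + 1) with hδ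
  have hmain : ∀ (T : RandomState), T.IsGood →
      |∫ ω, Real.log (stateAvg T F ω) ∂T.law -
        ∑ k ∈ Finset.range (p.natDegree + 1), p.coeff k *
          ∑ R : Fin k → Finset (Fin n × Fin K), (∏ l, coef (R l)) * T.moment (expSets R)|
        ≤ η / 4 := by
    intro T hT
    have := hT.prob
    have hm : Measurable fun ω => stateAvg T F ω :=
      (measurable_stateAvg_comp (X := Unit) hT (F := fun _ => F) (hFm.comp measurable_snd)).comp
        ((measurable_const (a := ())).prodMk measurable_id)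
    have hint : ∀ k : ℕ, Integrable (fun ω => stateAvg T F ω ^ k) T.law := fun k => by
      refine Integrable.of_bound (hm.pow_const k).aestronglyMeasurable (C ^ k)
        (ae_of_all _ fun ω => ?_)
      have h := stateAvg_mem hT hF ω
      rw [Real.norm_eq_abs, abs_pow]
      refine pow_le_pow_left₀ (abs_nonneg _) ?_ k
      rw [abs_of_pos (lt_of_lt_of_le (inv_pos.2 hC) h.1)]
      exact h.2
    have hpoly : ∫ ω, p.eval (stateAvg T F ω) ∂T.law =
        ∑ k ∈ Finset.range (p.natDegree + 1), p.coeff k *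
          ∑ R : Fin k → Finset (Fin n × Fin K), (∏ l, coef (R l)) * T.moment (expSets R) := by
      simp only [Polynomial.eval_eq_sum_range]
      rw [integral_finsetSum _ fun k _ => (hint k).const_mul _]
      exact Finset.sum_congr rfl fun k _ => by
        rw [integral_const_mul, integral_stateAvg_pow hT coef hrep]
    rw [← hpoly]
    refine integral_close (L := Real.log C + η / 4) (Real.measurable_log.comp hm)
      (p.continuous.measurable.comp hm) ?_ ?_ ?_
    · exact ae_of_all _ fun ω => by linarith [abs_log_le hC (stateAvg_mem hT hF ω)]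
    · refine ae_of_all _ fun ω => ?_
      have h1 := abs_le.1 (hp _ (stateAvg_mem hT hF ω)).le
      have h2 := abs_le.1 (abs_log_le hC (stateAvg_mem hT hF ω))
      exact abs_le.2 ⟨by linarith [h1.1, h2.1], by linarith [h1.2, h2.2]⟩
    · exact ae_of_all _ fun ω => by
        rw [abs_sub_comm]; exact (hp _ (stateAvg_mem hT hF ω)).le
  have hdiff : |∑ k ∈ Finset.range (p.natDegree + 1), p.coeff k *
        ∑ R : Fin k → Finset (Fin n × Fin K), (∏ l, coef (R l)) * S.moment (expSets R) -
      ∑ k ∈ Finset.range (p.natDegree + 1), p.coeff k *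
        ∑ R : Fin k → Finset (Fin n × Fin K), (∏ l, coef (R l)) * S'.moment (expSets R)|
      ≤ W * δ := by
    rw [← Finset.sum_sub_distrib, hW, Finset.sum_mul]
    refine (Finset.abs_sum_le_sum_abs _ _).trans (Finset.sum_le_sum fun k hk => ?_)
    rw [← mul_sub, abs_mul, mul_assoc]
    refine mul_le_mul_of_nonneg_left ?_ (abs_nonneg _)
    rw [← Finset.sum_sub_distrib]
    refine (Finset.abs_sum_le_sum_abs _ _).trans ?_
    calc ∑ R : Fin k → Finset (Fin n × Fin K),
          |(∏ l, coef (R l)) * S.moment (expSets R) - (∏ l, coef (R l)) * S'.moment (expSets R)|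
        ≤ ∑ R : Fin k → Finset (Fin n × Fin K), (∏ l, |coef (R l)|) * δ := by
          refine Finset.sum_le_sum fun R _ => ?_
          rw [← mul_sub, abs_mul, Finset.abs_prod]
          refine mul_le_mul_of_nonneg_left ?_ (Finset.prod_nonneg fun l _ => abs_nonneg _)
          exact hclose _ _ hM (by have := Finset.mem_range.1 hk; omega) _
      _ = (∑ R, |coef R|) ^ k * δ := by
          rw [← Finset.sum_mul, ← Fin.prod_const k, Fintype.prod_sum]
      _ ≤ B' ^ k * δ := by
          refine mul_le_mul_of_nonneg_right (pow_le_pow_left₀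
            (Finset.sum_nonneg fun R _ => abs_nonneg _) (hcoef.trans (le_max_left _ _)) k) ?_
          positivity
  have h1 := abs_le.1 (hmain S hS)
  have h2 := abs_le.1 (hmain S' hS')
  have h3 := abs_le.1 hdiff
  have h4 : W * δ ≤ η / 2 := by
    rw [hδ, ← mul_div_assoc, div_le_iff₀ (by linarith)]
    nlinarith
  exact abs_le.2 ⟨by linarith [h1.1, h2.2, h3.1], by linarith [h1.2, h2.1, h3.2]⟩

theorem ae_pi_of_ae {α : Type*} [MeasurableSpace α] {μ : Measure α} [IsProbabilityMeasure μ]
    {p : α → Prop} (h : ∀ᵐ x ∂μ, p x) :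
    ∀ᵐ d ∂Measure.pi (fun _ : Fin n => μ), ∀ k, p (d k) :=
  eventually_all.2 fun _ => Measure.tendsto_eval_ae_ae.eventually h

theorem ae_nice_fst {P : Measure (Factor K)} {Q : Measure ℝ} (hM : IsBoundedModel P Q c H)
    [NeZero K] : ∀ᵐ p ∂P.prod (unifFin (Fin K)), Nice c p.1 :=
  Measure.quasiMeasurePreserving_fst.ae (ae_nice hM)

/-- `E log ⟨U⟩` at a fixed number of clauses. -/
def cavUAt (S : RandomState) (P : Measure (Factor K)) (Q : Measure ℝ) (n : ℕ) : ℝ :=
  ∫ d : Fin n → Factor K × Fin K, ∫ h, ∫ ω, Real.log (stateAvg S (siteTerm d h) ω)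
    ∂S.law ∂Q ∂(Measure.pi fun _ => P.prod (unifFin (Fin K)))

/-- `E log ⟨V⟩` at a fixed number of clauses. -/
def cavVAt (S : RandomState) (P : Measure (Factor K)) (n : ℕ) : ℝ :=
  ∫ d : Fin n → Factor K, ∫ ω, Real.log (stateAvg S (edgeTerm d) ω)
    ∂S.law ∂(Measure.pi fun _ => P)

theorem measurable_cavU_inner {S : RandomState} (hS : S.IsGood) :
    Measurable fun q : (Fin n → Factor K × Fin K) × ℝ =>
      ∫ ω, Real.log (stateAvg S (siteTerm q.1 q.2) ω) ∂S.law := by
  have := hS.prob
  have h := measurable_stateAvg_comp (S := S) hS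
    (F := fun (q : (Fin n → Factor K × Fin K) × ℝ) y => siteTerm q.1 q.2 y)
    (measurable_siteTerm (K := K) (n := n))
  exact ((Real.measurable_log.comp h).stronglyMeasurable.integral_prod_right').measurable

theorem measurable_cavV_inner {S : RandomState} (hS : S.IsGood) :
    Measurable fun d : Fin n → Factor K => ∫ ω, Real.log (stateAvg S (edgeTerm d) ω) ∂S.law := by
  have := hS.prob
  have h := measurable_stateAvg_comp (S := S) hS
    (F := fun (q : Fin n → Factor K) y => edgeTerm q y)
    (measurable_edgeTerm (K := K) (n := n))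
  exact ((Real.measurable_log.comp h).stronglyMeasurable.integral_prod_right').measurable

theorem cavU_bounds {P : Measure (Factor K)} {Q : Measure ℝ} (hM : IsBoundedModel P Q c H)
    [NeZero K] {S : RandomState} (hS : S.IsGood) :
    ∀ᵐ d ∂Measure.pi (fun _ : Fin n => P.prod (unifFin (Fin K))), ∀ᵐ h ∂Q,
      |∫ ω, Real.log (stateAvg S (siteTerm d h) ω) ∂S.law| ≤ Real.log (termBound c H n) := by
  have := hM.toIsModel.prob_factor
  have := hS.prob
  filter_upwards [ae_pi_of_ae (n := n) (ae_nice_fst hM)] with d hd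
  filter_upwards [hM.h_le] with h hh
  exact abs_integral_le_of_ae (ae_of_all _ fun ω => abs_log_le (termBound_pos hM.c_lt)
    (stateAvg_mem hS (fun y hy => siteTerm_mem (c_nonneg hM) hM.c_lt (H_nonneg hM) hd hh hy) ω))

theorem cavV_bounds {P : Measure (Factor K)} {Q : Measure ℝ} (hM : IsBoundedModel P Q c H)
    {S : RandomState} (hS : S.IsGood) :
    ∀ᵐ d ∂Measure.pi (fun _ : Fin n => P),
      |∫ ω, Real.log (stateAvg S (edgeTerm d) ω) ∂S.law| ≤ Real.log (termBound c H n) := by
  have := hM.toIsModel.prob_factor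
  have := hS.prob
  filter_upwards [ae_pi_of_ae (n := n) (ae_nice hM)] with d hd
  exact abs_integral_le_of_ae (ae_of_all _ fun ω => abs_log_le (termBound_pos hM.c_lt)
    (stateAvg_mem hS (fun y hy => edgeTerm_mem (c_nonneg hM) hM.c_lt (H_nonneg hM) hd hy) ω))

theorem cavUAt_close {P : Measure (Factor K)} {Q : Measure ℝ} (hM : IsBoundedModel P Q c H)
    [NeZero K] (n : ℕ) {η : ℝ} (S S' : RandomState) (hS : S.IsGood) (hS' : S'.IsGood)
    (hclose : ∀ F : (Fin n × Fin K → ℝ) → ℝ, Measurable F →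
      (∀ y, (∀ i, |y i| ≤ 1) → F y ∈ Set.Icc (termBound c H n)⁻¹ (termBound c H n)) →
      HasExpansion F (coefBound K c H n) →
      |∫ ω, Real.log (stateAvg S F ω) ∂S.law - ∫ ω, Real.log (stateAvg S' F ω) ∂S'.law| ≤ η) :
    |cavUAt S P Q n - cavUAt S' P Q n| ≤ η := by
  have := hM.toIsModel.prob_factor
  have := hM.toIsModel.prob_field
  let g : RandomState → (Fin n → Factor K × Fin K) × ℝ → ℝ := fun T q =>
    ∫ ω, Real.log (stateAvg T (siteTerm q.1 q.2) ω) ∂T.law
  have hg : ∀ T, T.IsGood → Measurable (g T) := fun T hT => measurable_cavU_inner hT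
  have hG : ∀ T, T.IsGood → Measurable fun d => ∫ h, g T (d, h) ∂Q := fun T hT =>
    ((hg T hT).stronglyMeasurable.integral_prod_right').measurable
  have hb : ∀ T, T.IsGood → ∀ᵐ d ∂Measure.pi (fun _ : Fin n => P.prod (unifFin (Fin K))),
      ∀ᵐ h ∂Q, |g T (d, h)| ≤ Real.log (termBound c H n) := fun T hT => cavU_bounds hM hT
  have key : ∀ᵐ d ∂Measure.pi (fun _ : Fin n => P.prod (unifFin (Fin K))),
      |∫ h, g S (d, h) ∂Q - ∫ h, g S' (d, h) ∂Q| ≤ η := by
    filter_upwards [hb S hS, hb S' hS', ae_pi_of_ae (n := n) (ae_nice_fst hM)] with d h1 h2 hd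
    have hab : ∀ᵐ h ∂Q, |g S (d, h) - g S' (d, h)| ≤ η := by
      filter_upwards [hM.h_le] with h hh
      have hm : Measurable fun y : Fin n × Fin K → ℝ => siteTerm d h y :=
        (measurable_siteTerm (K := K) (n := n)).comp (measurable_prodMk_left (x := (d, h)))
      exact hclose (siteTerm d h) hm
        (fun y hy => siteTerm_mem (c_nonneg hM) hM.c_lt (H_nonneg hM) hd hh hy)
        (siteTerm_expansion (c_nonneg hM) hM.c_lt hd hh)
    exact integral_close (f := fun h => g S (d, h)) (g := fun h => g S' (d, h))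
      ((hg S hS).comp measurable_prodMk_left) ((hg S' hS').comp measurable_prodMk_left) h1 h2 hab
  exact integral_close (f := fun d => ∫ h, g S (d, h) ∂Q) (g := fun d => ∫ h, g S' (d, h) ∂Q)
    (L := Real.log (termBound c H n)) (hG S hS) (hG S' hS')
    ((hb S hS).mono fun d hd => abs_integral_le_of_ae hd)
    ((hb S' hS').mono fun d hd => abs_integral_le_of_ae hd) key

theorem cavVAt_close {P : Measure (Factor K)} {Q : Measure ℝ} (hM : IsBoundedModel P Q c H)
    (n : ℕ) {η : ℝ} (S S' : RandomState) (hS : S.IsGood) (hS' : S'.IsGood)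
    (hclose : ∀ F : (Fin n × Fin K → ℝ) → ℝ, Measurable F →
      (∀ y, (∀ i, |y i| ≤ 1) → F y ∈ Set.Icc (termBound c H n)⁻¹ (termBound c H n)) →
      HasExpansion F (coefBound K c H n) →
      |∫ ω, Real.log (stateAvg S F ω) ∂S.law - ∫ ω, Real.log (stateAvg S' F ω) ∂S'.law| ≤ η) :
    |cavVAt S P n - cavVAt S' P n| ≤ η := by
  have := hM.toIsModel.prob_factor
  let g : RandomState → (Fin n → Factor K) → ℝ := fun T d =>
    ∫ ω, Real.log (stateAvg T (edgeTerm d) ω) ∂T.law
  have key : ∀ᵐ d ∂Measure.pi (fun _ : Fin n => P), |g S d - g S' d| ≤ η := by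
    filter_upwards [ae_pi_of_ae (n := n) (ae_nice hM)] with d hd
    have hm : Measurable fun y : Fin n × Fin K → ℝ => edgeTerm d y := by
      unfold edgeTerm
      fun_prop
    exact hclose (edgeTerm d) hm
      (fun y hy => edgeTerm_mem (c_nonneg hM) hM.c_lt (H_nonneg hM) hd hy)
      (edgeTerm_expansion (c_nonneg hM) hM.c_lt (H_nonneg hM) hd)
  exact integral_close (f := g S) (g := g S') (L := Real.log (termBound c H n))
    (measurable_cavV_inner hS) (measurable_cavV_inner hS')
    (cavV_bounds hM hS) (cavV_bounds hM hS') key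

theorem cavAt_close {P : Measure (Factor K)} {Q : Measure ℝ} (hM : IsBoundedModel P Q c H)
    [NeZero K] (n : ℕ) {η : ℝ} (hη : 0 < η) :
    ∃ (d : ℕ) (δ : ℝ), 0 < δ ∧ ∀ S S' : RandomState, S.IsGood → S'.IsGood →
      ∀ (M₀ n₀ : ℕ), n * K ≤ M₀ → d ≤ n₀ → MomentClose M₀ n₀ δ S.moment S'.moment →
        |cavUAt S P Q n - cavUAt S' P Q n| ≤ η ∧ |cavVAt S P n - cavVAt S' P n| ≤ η := by
  obtain ⟨d, δ, hδ, hclose⟩ := log_avg_close (B := coefBound K c H n) n K
    (termBound_pos (c := c) (H := H) (n := n) hM.c_lt) hη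
  exact ⟨d, δ, hδ, fun S S' hS hS' M₀ n₀ h1 h2 h3 =>
    ⟨cavUAt_close hM n S S' hS hS' (hclose S S' hS hS' M₀ n₀ h1 h2 h3),
      cavVAt_close hM n S S' hS hS' (hclose S S' hS hS' M₀ n₀ h1 h2 h3)⟩⟩

theorem cavUAt_bound {P : Measure (Factor K)} {Q : Measure ℝ} (hM : IsBoundedModel P Q c H)
    [NeZero K] {S : RandomState} (hS : S.IsGood) (n : ℕ) :
    |cavUAt S P Q n| ≤ Real.log (termBound c H n) := by
  have := hM.toIsModel.prob_factor
  have := hM.toIsModel.prob_field
  exact abs_integral_le_of_ae ((cavU_bounds hM hS).mono fun d hd => abs_integral_le_of_ae hd)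

theorem cavVAt_bound {P : Measure (Factor K)} {Q : Measure ℝ} (hM : IsBoundedModel P Q c H)
    {S : RandomState} (hS : S.IsGood) (n : ℕ) :
    |cavVAt S P n| ≤ Real.log (termBound c H n) := by
  have := hM.toIsModel.prob_factor
  exact abs_integral_le_of_ae (cavV_bounds hM hS)

/-- A cut-off on the Poisson counts. -/
theorem poisson_cutoff (r : ℝ≥0) {g : ℕ → ℝ} (hg : Integrable g (poissonMeasure r))
    {η : ℝ} (hη : 0 < η) : ∀ᶠ N in atTop,
      ∫ n, (if N < n then |g n| else 0) ∂poissonMeasure r < η := by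
  refine Tendsto.eventually_lt_const (v := (∫ _n : ℕ, (0 : ℝ) ∂poissonMeasure r)) (by simpa) ?_
  refine tendsto_integral_of_dominated_convergence (fun n => |g n|)
    (fun N => .of_discrete) hg.abs (fun N => ae_of_all _ fun n => ?_) (ae_of_all _ fun n => ?_)
  · split_ifs <;> simp
  · exact tendsto_const_nhds.congr' (by
      filter_upwards [eventually_ge_atTop n] with N hN
      simp [not_lt.2 hN])

theorem poisson_close (r : ℝ≥0) {f g L : ℕ → ℝ} {e η : ℝ} {N : ℕ}
    (hL : Integrable L (poissonMeasure r)) (hf : ∀ n, |f n| ≤ L n) (hg : ∀ n, |g n| ≤ L n)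
    (hclose : ∀ n, n ≤ N → |f n - g n| ≤ e) (he : 0 ≤ e)
    (htail : ∫ n, (if N < n then |L n| else 0) ∂poissonMeasure r ≤ η) :
    |∫ n, f n ∂poissonMeasure r - ∫ n, g n ∂poissonMeasure r| ≤ e + 2 * η := by
  have hif : Integrable f (poissonMeasure r) :=
    hL.mono' .of_discrete (ae_of_all _ fun n => hf n)
  have hig : Integrable g (poissonMeasure r) :=
    hL.mono' .of_discrete (ae_of_all _ fun n => hg n)
  have hit : Integrable (fun n => if N < n then |L n| else 0) (poissonMeasure r) :=
    hL.abs.mono' .of_discrete (ae_of_all _ fun n => by split_ifs <;> simp)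
  rw [← integral_sub hif hig]
  refine (abs_integral_le_integral_abs).trans ?_
  refine (integral_mono (hif.sub hig).abs ((integrable_const e).add (hit.const_mul 2))
    fun n => ?_).trans ?_
  · simp only [Pi.sub_apply, Pi.add_apply]
    split_ifs with h
    · have h1 := (hf n).trans (le_abs_self _)
      have h2 := (hg n).trans (le_abs_self _)
      linarith [abs_sub (f n) (g n)]
    · linarith [hclose n (not_lt.1 h)]
  · simp only [Pi.add_apply]
    rw [integral_add (integrable_const e) (hit.const_mul 2), integral_const_mul]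
    simp only [integral_const, probReal_univ, one_smul]
    linarith

theorem cav_continuity : CavContinuityStmt := by
  intro K lam P Q c H hB ε hε
  have : NeZero K := ⟨by have := hB.two_le; omega⟩
  have hM := hB.model
  set r₁ := ((K : ℝ) * lam).toNNReal
  set r₂ := (((K : ℝ) - 1) * lam).toNNReal
  have hi := fun r => integrable_log_termBound (H := H) hM.c_lt r
  obtain ⟨N, hN1, hN2⟩ := ((poisson_cutoff r₁ (hi r₁) (η := ε / 16) (by positivity)).and
    (poisson_cutoff r₂ (hi r₂) (η := ε / 16) (by positivity))).exists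
  choose d δ hδ hclose using fun n => cavAt_close hM n (η := ε / 8) (by positivity)
  have hne : (Finset.range (N + 1)).Nonempty := ⟨0, by simp⟩
  refine ⟨N * K, (Finset.range (N + 1)).sup d, (Finset.range (N + 1)).inf' hne δ,
    (Finset.lt_inf'_iff hne).2 fun n _ => hδ n, fun S S' hS hS' hmom => ?_⟩
  have hn : ∀ n, n ≤ N → |cavUAt S P Q n - cavUAt S' P Q n| ≤ ε / 8 ∧
      |cavVAt S P n - cavVAt S' P n| ≤ ε / 8 := fun n hnN => by
    have hmem : n ∈ Finset.range (N + 1) := Finset.mem_range.2 (by omega)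
    refine hclose n S S' hS hS' (N * K) _ (Nat.mul_le_mul_right K hnN) (Finset.le_sup hmem) ?_
    exact fun M k hMk hk A => (hmom M k hMk hk A).trans (Finset.inf'_le _ hmem)
  have hU : |S.cavU lam P Q - S'.cavU lam P Q| ≤ ε / 8 + 2 * (ε / 16) :=
    poisson_close r₁ (f := cavUAt S P Q) (g := cavUAt S' P Q) (hi r₁) (cavUAt_bound hM hS)
      (cavUAt_bound hM hS') (fun n h => (hn n h).1) (by positivity) hN1.le
  have hV : |S.cavV lam P - S'.cavV lam P| ≤ ε / 8 + 2 * (ε / 16) :=
    poisson_close r₂ (f := cavVAt S P) (g := cavVAt S' P) (hi r₂) (cavVAt_bound hM hS)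
      (cavVAt_bound hM hS') (fun n h => (hn n h).2) (by positivity) hN2.le
  rw [abs_le] at hU hV ⊢
  simp only [RandomState.cav]
  constructor <;> linarith [hU.1, hU.2, hV.1, hV.2]

end Vale.Agent.P168.States
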