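import Vale.Agent.P168.States.Continuity
import Vale.Agent.P168.States.CascState
import Vale.Agent.P168.States.IterLimit

/-! Trial states are limits of cascade states. -/

open MeasureTheory ProbabilityTheory Filter
open scoped BigOperators NNReal ENNReal Topology

noncomputable section

namespace Vale.Agent.P168.States

open Vale.Agent.P168

variable {K n r : ℕ} {c H : ℝ} {m : Fin r → ℝ} {x : (Fin (r + 1) → ℝ) → ℝ}

/-- A function of the messages as a function of the marks. -/
def markFun (x : (Fin (r + 1) → ℝ) → ℝ) (F : (Fin n × Fin K → ℝ) → ℝ) (ω₀ : Fin n × Fin K → ℝ)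
    (z : Fin n × Fin K → Fin r → ℝ) : ℝ :=
  F fun q => x (Fin.cons (ω₀ q) (z q))

theorem measurable_markFun {X : Type*} [MeasurableSpace X] (hx : Measurable x)
    {F : X → (Fin n × Fin K → ℝ) → ℝ}
    (hF : Measurable fun p : X × (Fin n × Fin K → ℝ) => F p.1 p.2) :
    Measurable fun p : (X × (Fin n × Fin K → ℝ)) × (Fin n × Fin K → Fin r → ℝ) =>
      markFun x (F p.1.1) p.1.2 p.2 := by
  have h11 : Measurable fun p : (X × (Fin n × Fin K → ℝ)) × (Fin n × Fin K → Fin r → ℝ) => p.1.1 :=
    measurable_fst.comp measurable_fst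
  show Measurable fun p : (X × (Fin n × Fin K → ℝ)) × (Fin n × Fin K → Fin r → ℝ) =>
    F p.1.1 fun q => x (Fin.cons (p.1.2 q) (p.2 q))
  refine hF.comp (h11.prodMk (measurable_pi_lambda (fun (p : (X × (Fin n × Fin K → ℝ)) ×
    (Fin n × Fin K → Fin r → ℝ)) q => x (Fin.cons (p.1.2 q) (p.2 q))) fun q => ?_))
  exact hx.comp (measurable_cons.comp (((measurable_pi_apply q).comp
    (measurable_snd.comp measurable_fst)).prodMk ((measurable_pi_apply q).comp measurable_snd)))

/-- The trial value of a function of the messages. -/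
def trialLog (m : Fin r → ℝ) (x : (Fin (r + 1) → ℝ) → ℝ) (F : (Fin n × Fin K → ℝ) → ℝ) : ℝ :=
  ∫ ω₀, Real.log (nestedMean m (markFun x F ω₀)) ∂(Measure.pi fun _ : Fin n × Fin K => unif)

theorem measurable_trialLog {X : Type} [MeasurableSpace X] (hx : Measurable x)
    {F : X → (Fin n × Fin K → ℝ) → ℝ}
    (hF : Measurable fun p : X × (Fin n × Fin K → ℝ) => F p.1 p.2) :
    Measurable fun d => trialLog m x (F d) := by
  have h := measurable_nestedMean (X := X × (Fin n × Fin K → ℝ)) m
    (fun q z => markFun x (F q.1) q.2 z) (measurable_markFun hx hF)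
  exact ((Real.measurable_log.comp h).stronglyMeasurable.integral_prod_right').measurable

/-- The integral over the cascade, extended by zero to degenerate branching numbers. -/
def stateLog (m : Fin r → ℝ) (x : (Fin (r + 1) → ℝ) → ℝ) (b : Fin r → ℕ)
    (F : (Fin n × Fin K → ℝ) → ℝ) : ℝ :=
  if ∀ p, 1 ≤ b p then ∫ ω, Real.log (stateAvg (cascState m x b) F ω) ∂(cascState m x b).law else 0

theorem measurable_stateLog {X : Type*} [MeasurableSpace X] (hx : IsTrial m x) (b : Fin r → ℕ)
    {F : X → (Fin n × Fin K → ℝ) → ℝ}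
    (hF : Measurable fun p : X × (Fin n × Fin K → ℝ) => F p.1 p.2) :
    Measurable fun d => stateLog m x b (F d) := by
  unfold stateLog
  by_cases h : ∀ p, 1 ≤ b p
  · simp only [if_pos h]
    have hS := cascState_isGood hx h
    have := hS.prob
    exact ((Real.measurable_log.comp
      (measurable_stateAvg_comp hS hF)).stronglyMeasurable.integral_prod_right').measurable
  · simp only [if_neg h]
    exact measurable_const

theorem abs_stateLog_le (hx : IsTrial m x) (b : Fin r → ℕ) {F : (Fin n × Fin K → ℝ) → ℝ} {C : ℝ}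
    (hC : 1 ≤ C) (hFb : ∀ y, (∀ i, |y i| ≤ 1) → F y ∈ Set.Icc C⁻¹ C) :
    |stateLog m x b F| ≤ Real.log C := by
  unfold stateLog
  split_ifs with h
  · have hS := cascState_isGood hx h
    have := hS.prob
    exact abs_integral_le_of_ae (ae_of_all _ fun ω =>
      abs_log_le (by linarith) (stateAvg_mem hS hFb ω))
  · simpa using Real.log_nonneg hC

theorem measurable_cascAvg (hx : Measurable x) (b : Fin r → ℕ) {F : (Fin n × Fin K → ℝ) → ℝ}
    (hF : Measurable F) :
    Measurable fun ω : (ℕ → ℝ) × CascTree (ℕ → ℝ) r b => stateAvg (cascState m x b) F ω := by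
  refine Finset.measurable_sum (Finset.univ : Finset ((p : Fin r) → Fin (b p))) fun a _ => ?_
  refine ((measurable_cascWeight r m b a).comp measurable_snd).mul
    (hF.comp (measurable_pi_lambda _ fun i => ?_))
  exact (measurable_site_message hx (msgSite i)).comp
    (measurable_fst.prodMk ((measurable_leafMark r b a).comp measurable_snd))

/-- Logarithms of averages in cascade states tend to the trial values. -/
theorem tendsto_stateLog (hLog : CascadeLogStmt) (hx : IsTrial m x)
    {F : (Fin n × Fin K → ℝ) → ℝ} {C : ℝ} (hC : 1 ≤ C) (hF : Measurable F)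
    (hFb : ∀ y, (∀ i, |y i| ≤ 1) → F y ∈ Set.Icc C⁻¹ C) :
    Tendsto (fun b => stateLog m x b F) (cascFilter r) (𝓝 (trialLog m x F)) := by
  have hC0 : 0 < C := by linarith
  let pick : (ℕ → ℝ) → Fin n × Fin K → ℝ := fun y q => y (msgSite q)
  have hpick : Measurable pick := measurable_pi_lambda _ fun q => measurable_pi_apply _
  -- the average over the tree
  let g : (Fin r → ℕ) → (ℕ → ℝ) → ℝ := fun b ω₀ =>
    if ∀ p, 1 ≤ b p then
      ∫ t, Real.log (stateAvg (cascState m x b) F (ω₀, t)) ∂cascLaw siteLaw r b else 0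
  let f : (ℕ → ℝ) → ℝ := fun ω₀ => Real.log (nestedMean m (markFun x F (pick ω₀)))
  have hFp : Measurable fun p : Unit × (Fin n × Fin K → ℝ) => F p.2 := hF.comp measurable_snd
  have hf : Measurable f := by
    have h := measurable_nestedMean (X := Unit × (Fin n × Fin K → ℝ)) m
      (fun q z => markFun x F q.2 z)
      (measurable_markFun (F := fun _ : Unit => F) hx.measurable hFp)
    exact (Real.measurable_log.comp h).comp ((measurable_const (a := ())).prodMk hpick)
  have hg : ∀ b, Measurable (g b) := by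
    intro b
    simp only [g]
    by_cases h : ∀ p, 1 ≤ b p
    · simp only [if_pos h]
      have hm := measurable_cascAvg (m := m) hx.measurable b hF
      exact ((Real.measurable_log.comp hm).stronglyMeasurable.integral_prod_right').measurable
    · simp only [if_neg h]
      exact measurable_const
  have hgb : ∀ b ω₀, |g b ω₀| ≤ Real.log C := by
    intro b ω₀
    simp only [g]
    split_ifs with h
    · exact abs_integral_le_of_ae (ae_of_all _ fun t =>
        abs_log_le hC0 (stateAvg_mem (cascState_isGood hx h) hFb (ω₀, t)))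
    · simpa using Real.log_nonneg hC
  have hlim : ∀ ω₀, Tendsto (fun b => g b ω₀) (cascFilter r) (𝓝 (f ω₀)) := by
    intro ω₀
    let Y : (Fin r → ℕ → ℝ) → ℝ := fun ω =>
      markFun x F (pick ω₀) fun q p => ω p (msgSite q)
    have hYz : Measurable fun z => markFun x F (pick ω₀) z :=
      (measurable_markFun (F := fun _ : Unit => F) hx.measurable hFp).comp
        (measurable_prodMk_left (x := (((), pick ω₀) : Unit × (Fin n × Fin K → ℝ))))
    have hY : Measurable Y := hYz.comp (measurable_pi_lambda _ fun q =>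
      measurable_pi_lambda _ fun p => (measurable_pi_apply _).comp (measurable_pi_apply p))
    have hYb : ∀ ω, C⁻¹ ≤ Y ω ∧ Y ω ≤ C := fun ω => hFb _ fun q => hx.bounded _
    have h := hLog (ℕ → ℝ) siteLaw r m hx.pos hx.lt_one hx.strictMono Y C hC0 hY hYb
    rw [genNested_eq_nestedMean msgSite_injective r m _ hYz] at h
    refine h.congr' ?_
    filter_upwards [eventually_one_le r] with b hb
    simp only [g, if_pos hb]
    refine integral_congr_ae ?_
    filter_upwards [ae_cascPos siteLaw r b] with t ht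
    rw [cascMean_eq r m b hb t ht]
    rfl
  have hmain : Tendsto (fun b => ∫ ω₀, g b ω₀ ∂siteLaw) (cascFilter r)
      (𝓝 (∫ ω₀, f ω₀ ∂siteLaw)) :=
    tendsto_integral_cascFilter hg hf (B := fun _ => Real.log C) measurable_const
      (integrable_const _) (Eventually.of_forall fun b => ae_of_all _ (hgb b))
      (ae_of_all _ fun ω₀ => le_of_tendsto' (hlim ω₀).abs fun b => hgb b ω₀)
      (ae_of_all _ hlim)
  have hfeq : ∫ ω₀, f ω₀ ∂siteLaw = trialLog m x F := by
    rw [trialLog, ← siteLaw_map (msgSite_injective (n := n) (K := K)), integral_map hpick.aemeasurable]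
    have h := measurable_nestedMean (X := Unit × (Fin n × Fin K → ℝ)) m
      (fun q z => markFun x F q.2 z)
      (measurable_markFun (F := fun _ : Unit => F) hx.measurable hFp)
    exact ((Real.measurable_log.comp h).comp
      ((measurable_const (a := ())).prodMk measurable_id)).aestronglyMeasurable
  rw [hfeq] at hmain
  refine hmain.congr' ?_
  filter_upwards [eventually_one_le r] with b hb
  simp only [g, stateLog, if_pos hb]
  have hS := cascState_isGood hx hb
  have hm := measurable_cascAvg (m := m) hx.measurable b hF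
  exact (integral_prod (f := fun ω => Real.log (stateAvg (cascState m x b) F ω))
    (Integrable.of_bound (Real.measurable_log.comp hm).aestronglyMeasurable (Real.log C)
      (ae_of_all _ fun ω => abs_log_le hC0 (stateAvg_mem hS hFb ω)))).symm

theorem one_le_termBound (hc0 : 0 ≤ c) (hc : c < 1) (hH : 0 ≤ H) (k : ℕ) :
    1 ≤ termBound c H k := by
  have h1 : (1 : ℝ) ≤ (1 - c)⁻¹ := le_trans (by linarith) (one_add_le_inv hc0 hc)
  exact one_le_mul_of_one_le_of_one_le (by nlinarith [Real.one_le_exp hH]) (one_le_pow₀ h1)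

theorem abs_trialLog_le (hLog : CascadeLogStmt) (hx : IsTrial m x)
    {F : (Fin n × Fin K → ℝ) → ℝ} {C : ℝ} (hC : 1 ≤ C) (hF : Measurable F)
    (hFb : ∀ y, (∀ i, |y i| ≤ 1) → F y ∈ Set.Icc C⁻¹ C) : |trialLog m x F| ≤ Real.log C :=
  le_of_tendsto' (tendsto_stateLog hLog hx hC hF hFb).abs fun b => abs_stateLog_le hx b hC hFb

variable {P : Measure (Factor K)} {Q : Measure ℝ} {lam : ℝ}

theorem tendsto_cavU (hLog : CascadeLogStmt) (hM : IsBoundedModel P Q c H) [NeZero K]
    (hx : IsTrial m x) :
    Tendsto (fun b => (cascState m x b).cavU lam P Q) (cascFilter r)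
      (𝓝 (trialU lam P Q m x)) := by
  have := hM.toIsModel.prob_factor
  have := hM.toIsModel.prob_field
  let L : ℕ → ℝ := fun k => Real.log (termBound c H k)
  let gq : (k : ℕ) → (Fin r → ℕ) → (Fin k → Factor K × Fin K) × ℝ → ℝ := fun k b q =>
    stateLog m x b (siteTerm q.1 q.2)
  let fq : (k : ℕ) → (Fin k → Factor K × Fin K) × ℝ → ℝ := fun k q =>
    trialLog m x (siteTerm q.1 q.2)
  have hgm : ∀ k b, Measurable (gq k b) := fun k b =>
    measurable_stateLog (F := fun (q : (Fin k → Factor K × Fin K) × ℝ) y => siteTerm q.1 q.2 y)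
      hx b (measurable_siteTerm (K := K) (n := k))
  have hfm : ∀ k, Measurable (fq k) := fun k =>
    measurable_trialLog (F := fun (q : (Fin k → Factor K × Fin K) × ℝ) y => siteTerm q.1 q.2 y)
      hx.measurable (measurable_siteTerm (K := K) (n := k))
  let G : (Fin r → ℕ) → ℕ → ℝ := fun b k =>
    ∫ d, ∫ h, gq k b (d, h) ∂Q ∂(Measure.pi fun _ : Fin k => P.prod (unifFin (Fin K)))
  let F : ℕ → ℝ := fun k =>
    ∫ d, ∫ h, fq k (d, h) ∂Q ∂(Measure.pi fun _ : Fin k => P.prod (unifFin (Fin K)))
  have hbd : ∀ k, ∀ᵐ d ∂(Measure.pi fun _ : Fin k => P.prod (unifFin (Fin K))), ∀ᵐ h ∂Q,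
      (∀ b, |gq k b (d, h)| ≤ L k) ∧ |fq k (d, h)| ≤ L k ∧
        Tendsto (fun b => gq k b (d, h)) (cascFilter r) (𝓝 (fq k (d, h))) := by
    intro k
    filter_upwards [ae_pi_of_ae (n := k) (ae_nice_fst hM)] with d hd
    filter_upwards [hM.h_le] with h hh
    have hC := one_le_termBound (c_nonneg hM) hM.c_lt (H_nonneg hM) k
    have hFb : ∀ y, (∀ i, |y i| ≤ 1) →
        siteTerm d h y ∈ Set.Icc (termBound c H k)⁻¹ (termBound c H k) := fun y hy =>
      siteTerm_mem (c_nonneg hM) hM.c_lt (H_nonneg hM) hd hh hy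
    have hFm : Measurable fun y : Fin k × Fin K → ℝ => siteTerm d h y :=
      (measurable_siteTerm (K := K) (n := k)).comp (measurable_prodMk_left (x := (d, h)))
    exact ⟨fun b => abs_stateLog_le hx b hC hFb, abs_trialLog_le hLog hx hC hFm hFb,
      tendsto_stateLog hLog hx hC hFm hFb⟩
  have hk : ∀ k, Tendsto (fun b => G b k) (cascFilter r) (𝓝 (F k)) ∧
      (∀ b, |G b k| ≤ L k) ∧ |F k| ≤ L k := by
    intro k
    refine ⟨?_, fun b => ?_, ?_⟩
    · refine tendsto_integral_cascFilter (g := fun b d => ∫ h, gq k b (d, h) ∂Q)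
        (f := fun d => ∫ h, fq k (d, h) ∂Q) (B := fun _ => L k)
        (fun b => ((hgm k b).stronglyMeasurable.integral_prod_right').measurable)
        ((hfm k).stronglyMeasurable.integral_prod_right').measurable measurable_const
        (integrable_const _) (Eventually.of_forall fun b => ?_) ?_ ?_
      · exact (hbd k).mono fun d hd => abs_integral_le_of_ae (hd.mono fun h hh => hh.1 b)
      · exact (hbd k).mono fun d hd => abs_integral_le_of_ae (hd.mono fun h hh => hh.2.1)
      · filter_upwards [hbd k] with d hd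
        exact tendsto_integral_cascFilter (g := fun b h => gq k b (d, h))
          (f := fun h => fq k (d, h)) (B := fun _ => L k)
          (fun b => (hgm k b).comp measurable_prodMk_left) ((hfm k).comp measurable_prodMk_left)
          measurable_const (integrable_const _)
          (Eventually.of_forall fun b => hd.mono fun h hh => hh.1 b)
          (hd.mono fun h hh => hh.2.1) (hd.mono fun h hh => hh.2.2)
    · exact abs_integral_le_of_ae ((hbd k).mono fun d hd =>
        abs_integral_le_of_ae (hd.mono fun h hh => hh.1 b))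
    · exact abs_integral_le_of_ae ((hbd k).mono fun d hd =>
        abs_integral_le_of_ae (hd.mono fun h hh => hh.2.1))
  have hmain := tendsto_integral_cascFilter (μ := poissonMeasure ((K : ℝ) * lam).toNNReal)
    (g := G) (f := F) (B := L) (fun b => .of_discrete) .of_discrete .of_discrete
    (integrable_log_termBound hM.c_lt _) (Eventually.of_forall fun b => ae_of_all _ fun k => (hk k).2.1 b)
    (ae_of_all _ fun k => (hk k).2.2) (ae_of_all _ fun k => (hk k).1)
  refine Tendsto.congr' ?_ (show Tendsto _ _ (𝓝 (trialU lam P Q m x)) from hmain)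
  filter_upwards [eventually_one_le r] with b hb
  simp only [G, gq, stateLog, if_pos hb]
  rfl

theorem tendsto_cavV (hLog : CascadeLogStmt) (hM : IsBoundedModel P Q c H) (hx : IsTrial m x) :
    Tendsto (fun b => (cascState m x b).cavV lam P) (cascFilter r)
      (𝓝 (trialV lam P m x)) := by
  have := hM.toIsModel.prob_factor
  let L : ℕ → ℝ := fun k => Real.log (termBound c H k)
  let gq : (k : ℕ) → (Fin r → ℕ) → (Fin k → Factor K) → ℝ := fun k b d =>
    stateLog m x b (edgeTerm d)
  let fq : (k : ℕ) → (Fin k → Factor K) → ℝ := fun k d => trialLog m x (edgeTerm d)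
  have hgm : ∀ k b, Measurable (gq k b) := fun k b =>
    measurable_stateLog (F := fun (d : Fin k → Factor K) y => edgeTerm d y)
      hx b (measurable_edgeTerm (K := K) (n := k))
  have hfm : ∀ k, Measurable (fq k) := fun k =>
    measurable_trialLog (F := fun (d : Fin k → Factor K) y => edgeTerm d y)
      hx.measurable (measurable_edgeTerm (K := K) (n := k))
  let G : (Fin r → ℕ) → ℕ → ℝ := fun b k => ∫ d, gq k b d ∂(Measure.pi fun _ : Fin k => P)
  let F : ℕ → ℝ := fun k => ∫ d, fq k d ∂(Measure.pi fun _ : Fin k => P)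
  have hbd : ∀ k, ∀ᵐ d ∂(Measure.pi fun _ : Fin k => P),
      (∀ b, |gq k b d| ≤ L k) ∧ |fq k d| ≤ L k ∧
        Tendsto (fun b => gq k b d) (cascFilter r) (𝓝 (fq k d)) := by
    intro k
    filter_upwards [ae_pi_of_ae (n := k) (ae_nice hM)] with d hd
    have hC := one_le_termBound (c_nonneg hM) hM.c_lt (H_nonneg hM) k
    have hFb : ∀ y, (∀ i, |y i| ≤ 1) →
        edgeTerm d y ∈ Set.Icc (termBound c H k)⁻¹ (termBound c H k) := fun y hy =>
      edgeTerm_mem (c_nonneg hM) hM.c_lt (H_nonneg hM) hd hy
    have hFm : Measurable fun y : Fin k × Fin K → ℝ => edgeTerm d y := by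
      unfold edgeTerm
      fun_prop
    exact ⟨fun b => abs_stateLog_le hx b hC hFb, abs_trialLog_le hLog hx hC hFm hFb,
      tendsto_stateLog hLog hx hC hFm hFb⟩
  have hk : ∀ k, Tendsto (fun b => G b k) (cascFilter r) (𝓝 (F k)) ∧
      (∀ b, |G b k| ≤ L k) ∧ |F k| ≤ L k := fun k =>
    ⟨tendsto_integral_cascFilter (g := gq k) (f := fq k) (B := fun _ => L k) (hgm k) (hfm k)
        measurable_const (integrable_const _)
        (Eventually.of_forall fun b => (hbd k).mono fun d hd => hd.1 b)
        ((hbd k).mono fun d hd => hd.2.1) ((hbd k).mono fun d hd => hd.2.2),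
      fun b => abs_integral_le_of_ae ((hbd k).mono fun d hd => hd.1 b),
      abs_integral_le_of_ae ((hbd k).mono fun d hd => hd.2.1)⟩
  have hmain := tendsto_integral_cascFilter (μ := poissonMeasure (((K : ℝ) - 1) * lam).toNNReal)
    (g := G) (f := F) (B := L) (fun b => .of_discrete) .of_discrete .of_discrete
    (integrable_log_termBound hM.c_lt _) (Eventually.of_forall fun b => ae_of_all _ fun k => (hk k).2.1 b)
    (ae_of_all _ fun k => (hk k).2.2) (ae_of_all _ fun k => (hk k).1)
  refine Tendsto.congr' ?_ (show Tendsto _ _ (𝓝 (trialV lam P m x)) from hmain)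
  filter_upwards [eventually_one_le r] with b hb
  simp only [G, gq, stateLog, if_pos hb]
  rfl

/-- The product of the messages of replica `l`. -/
def replicaFun {M k : ℕ} (x : (Fin (r + 1) → ℝ) → ℝ) (A : Fin M → Finset (Fin k)) (ω₀ : ℕ → ℝ)
    (l : Fin k) (ω : Fin r → ℕ → ℝ) : ℝ :=
  ∏ i : Fin M, if l ∈ A i then x (Fin.cons (ω₀ i) fun p => ω p i) else 1

theorem abs_replicaFun_le (hx : IsTrial m x) {M k : ℕ} (A : Fin M → Finset (Fin k))
    (ω₀ : ℕ → ℝ) (l : Fin k) (ω : Fin r → ℕ → ℝ) : |replicaFun x A ω₀ l ω| ≤ 1 := by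
  rw [replicaFun, Finset.abs_prod]
  refine Finset.prod_le_one (fun i _ => abs_nonneg _) fun i _ => ?_
  split_ifs
  · exact hx.bounded _
  · simp

theorem measurable_replicaFun (hx : Measurable x) {M k : ℕ} (A : Fin M → Finset (Fin k))
    (l : Fin k) :
    Measurable fun q : (ℕ → ℝ) × (Fin r → ℕ → ℝ) => replicaFun x A q.1 l q.2 := by
  refine Finset.measurable_prod _ fun i _ => ?_
  split_ifs
  · exact measurable_site_message hx i
  · exact measurable_const

theorem measurable_shapeMarks {β : Type} [MeasurableSpace β] {k : ℕ} (v : Shape r k) (l : Fin k) :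
    Measurable fun ω : Fin r → Fin k → β => shapeMarks v ω l :=
  measurable_pi_lambda _ fun p => (measurable_pi_apply _).comp (measurable_pi_apply p)

theorem tendsto_moment (hMom : CascadeMomentStmt) (hx : IsTrial m x) {M k : ℕ}
    (A : Fin M → Finset (Fin k)) :
    Tendsto (fun b => (cascState m x b).moment A) (cascFilter r) (𝓝 (mpMoment m x A)) := by
  let f : (ℕ → ℝ) → ℝ := fun ω₀ => treeMoment siteLaw m (replicaFun x A ω₀)
  let g : (Fin r → ℕ) → (ℕ → ℝ) → ℝ := fun b ω₀ =>
    ∫ t, ∏ l : Fin k, ∑ a, cascWeight r m b t a * replicaFun x A ω₀ l (leafMark r b t a)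
      ∂cascLaw siteLaw r b
  have hgm2 : ∀ b : Fin r → ℕ, Measurable fun q : (ℕ → ℝ) × CascTree (ℕ → ℝ) r b =>
      ∏ l : Fin k, ∑ a, cascWeight r m b q.2 a * replicaFun x A q.1 l (leafMark r b q.2 a) :=
    fun b => Finset.measurable_prod _ fun l _ => Finset.measurable_sum _ fun a _ =>
      ((measurable_cascWeight r m b a).comp measurable_snd).mul
        ((measurable_replicaFun hx.measurable A l).comp
          (measurable_fst.prodMk ((measurable_leafMark r b a).comp measurable_snd)))
  have hg : ∀ b, Measurable (g b) := fun b =>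
    ((hgm2 b).stronglyMeasurable.integral_prod_right').measurable
  have hbd : ∀ b, (∀ p, 1 ≤ b p) → ∀ (ω₀ : ℕ → ℝ) (t : CascTree (ℕ → ℝ) r b),
      |∏ l : Fin k, ∑ a, cascWeight r m b t a * replicaFun x A ω₀ l (leafMark r b t a)| ≤ 1 := by
    intro b hb ω₀ t
    rw [Finset.abs_prod]
    refine Finset.prod_le_one (fun l _ => abs_nonneg _) fun l _ => ?_
    refine (Finset.abs_sum_le_sum_abs _ _).trans (le_trans ?_ (cascWeight_sum r m b hb t).le)
    refine Finset.sum_le_sum fun a _ => ?_
    rw [abs_mul, abs_of_nonneg (cascWeight_nonneg r m b t a)]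
    exact mul_le_of_le_one_right (cascWeight_nonneg r m b t a) (abs_replicaFun_le hx A ω₀ l _)
  have hgb : ∀ᶠ b in cascFilter r, ∀ ω₀, |g b ω₀| ≤ 1 := by
    filter_upwards [eventually_one_le r] with b hb ω₀
    exact abs_integral_le_of_ae (ae_of_all _ fun t => hbd b hb ω₀ t)
  have hlim : ∀ ω₀, Tendsto (fun b => g b ω₀) (cascFilter r) (𝓝 (f ω₀)) := by
    intro ω₀
    have h := hMom (ℕ → ℝ) siteLaw r k m hx.pos hx.lt_one hx.strictMono (replicaFun x A ω₀)
      (fun l => (measurable_replicaFun hx.measurable A l).comp measurable_prodMk_left)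
      (fun l ω => abs_replicaFun_le hx A ω₀ l ω)
    refine h.congr' ?_
    filter_upwards [eventually_one_le r] with b hb
    refine integral_congr_ae ?_
    filter_upwards [ae_cascPos siteLaw r b] with t ht
    exact Finset.prod_congr rfl fun l _ => cascMean_eq r m b hb t ht _
  have hinner : ∀ v : Shape r k, Measurable fun q : (ℕ → ℝ) × (Fin r → Fin k → ℕ → ℝ) =>
      ∏ l : Fin k, replicaFun x A q.1 l (shapeMarks v q.2 l) := fun v =>
    Finset.measurable_prod _ fun l _ => (measurable_replicaFun hx.measurable A l).comp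
      (measurable_fst.prodMk ((measurable_shapeMarks v l).comp measurable_snd))
  have hv : ∀ v : Shape r k, Measurable fun ω₀ : ℕ → ℝ => ∫ ω : Fin r → Fin k → ℕ → ℝ,
      ∏ l, replicaFun x A ω₀ l (shapeMarks v ω l)
        ∂(Measure.pi fun _ => Measure.pi fun _ => siteLaw) := fun v =>
    ((hinner v).stronglyMeasurable.integral_prod_right').measurable
  have hvb : ∀ v : Shape r k, ∀ ω₀ : ℕ → ℝ, |∫ ω : Fin r → Fin k → ℕ → ℝ,
      ∏ l, replicaFun x A ω₀ l (shapeMarks v ω l)
        ∂(Measure.pi fun _ => Measure.pi fun _ => siteLaw)| ≤ 1 := fun v ω₀ =>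
    abs_integral_le_of_ae (ae_of_all _ fun ω => by
      rw [Finset.abs_prod]
      exact Finset.prod_le_one (fun l _ => abs_nonneg _) fun l _ => abs_replicaFun_le hx A ω₀ l _)
  have hf : Measurable f := Finset.measurable_sum _ fun v _ => (hv v).const_mul _
  have hmain : Tendsto (fun b => ∫ ω₀, g b ω₀ ∂siteLaw) (cascFilter r)
      (𝓝 (∫ ω₀, f ω₀ ∂siteLaw)) :=
    tendsto_integral_cascFilter hg hf (B := fun _ => (1 : ℝ)) measurable_const
      (integrable_const _) (hgb.mono fun b hb => ae_of_all _ hb)
      (ae_of_all _ fun ω₀ => le_of_tendsto (hlim ω₀).abs (hgb.mono fun b hb => hb ω₀))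
      (ae_of_all _ hlim)
  have hfeq : ∫ ω₀, f ω₀ ∂siteLaw = mpMoment m x A := by
    simp only [f, treeMoment, mpMoment]
    rw [integral_finsetSum _ fun v _ =>
      (Integrable.of_bound (hv v).aestronglyMeasurable 1 (ae_of_all _ (hvb v))).const_mul _]
    refine Finset.sum_congr rfl fun v _ => ?_
    rw [integral_const_mul]
    congr 1
    let G : Fin M → ℝ → (Fin r → Fin k → ℝ) → ℝ := fun i s z =>
      ∏ l ∈ A i, x (Fin.cons s (shapeMarks v z l))
    have hG : ∀ i, Measurable fun q : ℝ × (Fin r → Fin k → ℝ) => G i q.1 q.2 := fun i =>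
      Finset.measurable_prod _ fun l _ => hx.measurable.comp (measurable_cons.comp
        (measurable_fst.prodMk ((measurable_shapeMarks v l).comp measurable_snd)))
    have hpt : ∀ (ω₀ : ℕ → ℝ) (ω : Fin r → Fin k → ℕ → ℝ),
        ∏ l, replicaFun x A ω₀ l (shapeMarks v ω l) =
          ∏ i : Fin M, G i (ω₀ i) (fun p l => ω p l i) := by
      intro ω₀ ω
      simp only [replicaFun]
      rw [Finset.prod_comm]
      refine Finset.prod_congr rfl fun i _ => ?_
      rw [Finset.prod_ite_mem, Finset.univ_inter]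
      rfl
    simp only [hpt]
    have hin : ∀ ω₀ : ℕ → ℝ, (∫ ω, ∏ i : Fin M, G i (ω₀ i) (fun p l => ω p l i)
        ∂(Measure.pi fun _ : Fin r => Measure.pi fun _ : Fin k => siteLaw)) =
        ∏ i : Fin M, ∫ z, G i (ω₀ i) z
          ∂(Measure.pi fun _ : Fin r => Measure.pi fun _ : Fin k => unif) := fun ω₀ =>
      integral_marks_prod r k M (fun i => G i (ω₀ i))
        fun i => (hG i).comp measurable_prodMk_left
    simp only [hin]
    let J : Fin M → ℝ → ℝ := fun i s =>
      ∫ z, G i s z ∂(Measure.pi fun _ : Fin r => Measure.pi fun _ : Fin k => unif)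
    have hJ : ∀ i, Measurable (J i) := fun i =>
      ((hG i).stronglyMeasurable.integral_prod_right').measurable
    have h1 : ∫ ω₀ : ℕ → ℝ, ∏ i : Fin M, J i (ω₀ i) ∂siteLaw =
        ∫ w : Fin M → ℝ, ∏ i, J i (w i) ∂(Measure.pi fun _ => unif) := by
      rw [← siteLaw_map (ι := Fin M) Fin.val_injective,
        integral_map (measurable_pi_lambda _ fun i => measurable_pi_apply _).aemeasurable]
      exact (Finset.measurable_prod _ fun i _ =>
        (hJ i).comp (measurable_pi_apply i)).aestronglyMeasurable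
    refine h1.trans ?_
    rw [integral_fintype_prod_eq_prod]
    rfl
  rw [hfeq] at hmain
  refine hmain.congr' ?_
  filter_upwards [eventually_one_le r] with b hb
  exact (integral_prod (f := fun q : (ℕ → ℝ) × CascTree (ℕ → ℝ) r b =>
      ∏ l : Fin k, ∑ a, cascWeight r m b q.2 a * replicaFun x A q.1 l (leafMark r b q.2 a))
    (Integrable.of_bound (hgm2 b).aestronglyMeasurable 1
      (ae_of_all _ fun q => hbd b hb q.1 q.2))).symm

/-- Trial states as random states. -/
theorem mp_state (hLog : CascadeLogStmt) (hMom : CascadeMomentStmt) : MPStateStmt := by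
  intro K lam P Q c H hB r m x hx M₀ n₀ ε hε
  have : NeZero K := ⟨by have := hB.two_le; omega⟩
  have hcav : Tendsto (fun b => (cascState m x b).cav lam P Q) (cascFilter r)
      (𝓝 (trialU lam P Q m x - trialV lam P m x)) :=
    (tendsto_cavU hLog hB.model hx).sub (tendsto_cavV hLog hB.model hx)
  have hmom : ∀ᶠ b in cascFilter r, ∀ (M : Fin (M₀ + 1)) (k : Fin (n₀ + 1))
      (A : Fin M → Finset (Fin k)), |(cascState m x b).moment A - mpMoment m x A| < ε := by
    refine eventually_all.2 fun M => eventually_all.2 fun k => eventually_all.2 fun A => ?_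
    exact (Metric.tendsto_nhds.1 (tendsto_moment hMom hx A)) ε hε
  obtain ⟨b, hb, hc1, hm1⟩ :=
    ((eventually_one_le r).and ((Metric.tendsto_nhds.1 hcav ε hε).and hmom)).exists
  refine ⟨cascState m x b, cascState_isGood hx hb, le_of_lt hc1, fun M k hM hk A => ?_⟩
  exact (hm1 ⟨M, by omega⟩ ⟨k, by omega⟩ A).le

end Vale.Agent.P168.States
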