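import Vale.Agent.P168.States.Basic

/-! Reindexing of product measures and nested means with marks in a product space. -/

open MeasureTheory ProbabilityTheory Filter
open scoped BigOperators NNReal ENNReal

noncomputable section

namespace Vale.Agent.P168.States

open Vale.Agent.P168

/-- The law of the marks: independent uniform variables, one for each site. -/
def siteLaw : Measure (ℕ → ℝ) := Measure.infinitePi fun _ => unif

instance isProb_siteLaw : IsProbabilityMeasure siteLaw := by
  unfold siteLaw
  infer_instance

theorem siteLaw_map {ι : Type*} [Fintype ι] {s : ι → ℕ} (hs : Function.Injective s) :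
    siteLaw.map (fun (y : ℕ → ℝ) (i : ι) => y (s i)) = Measure.pi fun _ : ι => unif := by
  classical
  refine (Measure.pi_eq fun t ht => ?_).symm
  rw [Measure.map_apply (by fun_prop) (MeasurableSet.univ_pi ht)]
  have hpre : (fun (y : ℕ → ℝ) (i : ι) => y (s i)) ⁻¹' Set.univ.pi t =
      Set.pi ((Finset.univ.map ⟨s, hs⟩ : Finset ℕ) : Set ℕ)
        (Function.extend s t fun _ => Set.univ) := by
    ext y
    simp [Set.mem_pi, hs.extend_apply]
  rw [hpre, siteLaw, Measure.infinitePi_pi]
  · simp [Finset.prod_map, hs.extend_apply]
  · intro i hi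
    simp only [Finset.mem_map, Finset.mem_univ, true_and, Function.Embedding.coeFn_mk] at hi
    obtain ⟨j, rfl⟩ := hi
    rw [hs.extend_apply]
    exact ht j

theorem pi_map_swap {A B X : Type*} [Fintype A] [Fintype B] [MeasurableSpace X] (μ : Measure X)
    [IsProbabilityMeasure μ] :
    (Measure.pi fun _ : A => Measure.pi fun _ : B => μ).map (fun ω b a => ω a b) =
      Measure.pi fun _ : B => Measure.pi fun _ : A => μ := by
  simp only [← Measure.infinitePi_eq_pi]
  have h1 := Measure.infinitePi_map_curry_symm (fun (_ : A) (_ : B) => μ)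
  have h2 := Measure.infinitePi_map_piCongrLeft (fun _ : B × A => μ) (Equiv.prodComm A B)
  have h3 := Measure.infinitePi_map_curry (fun (_ : B) (_ : A) => μ)
  rw [← h3, ← h2, ← h1, Measure.map_map (by fun_prop) (by fun_prop),
    Measure.map_map (by fun_prop) (by fun_prop)]
  congr 1

/-- Marks on finitely many sites are independent over the sites. -/
theorem marks_map (r k M : ℕ) :
    (Measure.pi fun _ : Fin r => Measure.pi fun _ : Fin k => siteLaw).map
        (fun ω (i : Fin M) (p : Fin r) (l : Fin k) => ω p l i) =
      Measure.pi fun _ : Fin M => Measure.pi fun _ : Fin r => Measure.pi fun _ : Fin k => unif := by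
  let f : (Fin k → ℕ → ℝ) → Fin k → Fin M → ℝ := fun z l i => z l i
  let g : (Fin k → Fin M → ℝ) → Fin M → Fin k → ℝ := fun z i l => z l i
  have hf : Measurable f := by fun_prop
  have hg : Measurable g := by fun_prop
  have h1 : (Measure.pi fun _ : Fin k => siteLaw).map f =
      Measure.pi fun _ : Fin k => Measure.pi fun _ : Fin M => unif := by
    have e := Measure.pi_map_pi (μ := fun _ : Fin k => siteLaw)
      (f := fun (_ : Fin k) (y : ℕ → ℝ) (i : Fin M) => y i) fun _ =>
        (by fun_prop : Measurable fun (y : ℕ → ℝ) (i : Fin M) => y i).aemeasurable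
    simp only [siteLaw_map (ι := Fin M) Fin.val_injective] at e
    exact e
  have h2 : (Measure.pi fun _ : Fin k => siteLaw).map (g ∘ f) =
      Measure.pi fun _ : Fin M => Measure.pi fun _ : Fin k => unif := by
    rw [← Measure.map_map hg hf, h1]
    exact pi_map_swap unif
  have h3 : (Measure.pi fun _ : Fin r => Measure.pi fun _ : Fin k => siteLaw).map
      (fun ω p => (g ∘ f) (ω p)) =
      Measure.pi fun _ : Fin r => Measure.pi fun _ : Fin M => Measure.pi fun _ : Fin k => unif := by
    rw [Measure.pi_map_pi (fun _ => (hg.comp hf).aemeasurable)]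
    simp only [h2]
  have h4 := pi_map_swap (A := Fin r) (B := Fin M) (Measure.pi fun _ : Fin k => unif)
  rw [← h3] at h4
  refine Eq.trans ?_ h4
  rw [Measure.map_map]
  · rfl
  · fun_prop
  · exact measurable_pi_lambda _ fun p => (hg.comp hf).comp (measurable_pi_apply p)

/-- Integrals of products over sites factorise. -/
theorem integral_marks_prod (r k M : ℕ) (G : Fin M → (Fin r → Fin k → ℝ) → ℝ)
    (hG : ∀ i, Measurable (G i)) :
    ∫ ω, ∏ i : Fin M, G i (fun p l => ω p l i)
        ∂(Measure.pi fun _ : Fin r => Measure.pi fun _ : Fin k => siteLaw) =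
      ∏ i : Fin M, ∫ z, G i z ∂(Measure.pi fun _ : Fin r => Measure.pi fun _ : Fin k => unif) := by
  have hm : Measurable fun (ω : Fin r → Fin k → ℕ → ℝ) (i : Fin M) (p : Fin r) (l : Fin k) =>
      ω p l i := by fun_prop
  have hG' : Measurable fun z : Fin M → Fin r → Fin k → ℝ => ∏ i, G i (z i) :=
    Finset.measurable_prod _ fun i _ => (hG i).comp (measurable_pi_apply i)
  have h := integral_map (μ := Measure.pi fun _ : Fin r => Measure.pi fun _ : Fin k => siteLaw)
    hm.aemeasurable hG'.aestronglyMeasurable
  rw [marks_map] at h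
  rw [← h, integral_fintype_prod_eq_prod]

theorem measurable_cons {α : Type*} [MeasurableSpace α] {r : ℕ} :
    Measurable fun q : α × (Fin r → α) => (Fin.cons q.1 q.2 : Fin (r + 1) → α) := by
  refine measurable_pi_lambda _ fun p => ?_
  induction p using Fin.cases with
  | zero => simpa using measurable_fst
  | succ p => simpa using (measurable_pi_apply p).fun_comp measurable_snd

theorem measurable_nestedMean' {ι : Type} [Fintype ι] (r : ℕ) :
    ∀ (X : Type) [MeasurableSpace X] (m : Fin r → ℝ) (Y : X → (ι → Fin r → ℝ) → ℝ),
      Measurable (fun p : X × (ι → Fin r → ℝ) => Y p.1 p.2) →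
      Measurable fun z => nestedMean m (Y z) := by
  induction r with
  | zero =>
    intro X _ m Y hY
    exact hY.comp (measurable_id.prodMk measurable_const)
  | succ r ih =>
    intro X _ m Y hY
    have hY' : Measurable fun u : (X × (ι → ℝ)) × (ι → Fin r → ℝ) =>
        Y u.1.1 fun i => Fin.cons (u.1.2 i) (u.2 i) := by
      refine hY.comp ((measurable_fst.comp measurable_fst).prodMk (measurable_pi_lambda _ fun i => ?_))
      exact measurable_cons.comp (((measurable_pi_apply i).comp
        (measurable_snd.comp measurable_fst)).prodMk ((measurable_pi_apply i).comp measurable_snd))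
    have hin := ih (X × (ι → ℝ)) (Fin.tail m) (fun q ω => Y q.1 fun i => Fin.cons (q.2 i) (ω i)) hY'
    simp only [nestedMean]
    exact ((hin.pow_const (m 0)).stronglyMeasurable.integral_prod_right').measurable.pow_const _

theorem measurable_nestedMean {ι : Type} [Fintype ι] {r : ℕ} {X : Type} [MeasurableSpace X]
    (m : Fin r → ℝ) (Y : X → (ι → Fin r → ℝ) → ℝ)
    (hY : Measurable (fun p : X × (ι → Fin r → ℝ) => Y p.1 p.2)) :
    Measurable fun z => nestedMean m (Y z) := measurable_nestedMean' r X m Y hY

/-- Marks carrying all sites give the nested mean over the sites in use. -/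
theorem genNested_eq_nestedMean {ι : Type} [Fintype ι] {s : ι → ℕ} (hs : Function.Injective s) :
    ∀ (r : ℕ) (m : Fin r → ℝ) (Y : (ι → Fin r → ℝ) → ℝ), Measurable Y →
      genNested siteLaw m (fun ω => Y fun i p => ω p (s i)) = nestedMean m Y := by
  intro r
  induction r with
  | zero =>
    intro m Y _
    simp only [genNested, nestedMean]
    congr 1
    funext i p
    exact p.elim0
  | succ r ih =>
    intro m Y hY
    simp only [genNested, nestedMean]
    congr 1
    have hcons : ∀ (b : ℕ → ℝ), (fun ω : Fin r → ℕ → ℝ =>
        Y fun i p => (Fin.cons b ω : Fin (r + 1) → ℕ → ℝ) p (s i)) =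
        fun ω => (fun z : ι → Fin r → ℝ => Y fun i => Fin.cons (b (s i)) (z i))
          fun i p => ω p (s i) := by
      intro b
      funext ω
      refine congrArg Y (funext fun i => funext fun p => ?_)
      refine Fin.cases ?_ (fun p' => ?_) p <;> simp
    have hY' : Measurable fun q : (ι → ℝ) × (ι → Fin r → ℝ) =>
        Y fun i => Fin.cons (q.1 i) (q.2 i) := by
      refine hY.comp (measurable_pi_lambda _ fun i => ?_)
      exact measurable_cons.comp (((measurable_pi_apply i).comp measurable_fst).prodMk
        ((measurable_pi_apply i).comp measurable_snd))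
    have hin : ∀ b : ℕ → ℝ, genNested siteLaw (Fin.tail m)
        (fun ω : Fin r → ℕ → ℝ => Y fun i p => (Fin.cons b ω : Fin (r + 1) → ℕ → ℝ) p (s i)) =
        nestedMean (Fin.tail m) fun z => Y fun i => Fin.cons (b (s i)) (z i) := by
      intro b
      rw [hcons b]
      exact ih (Fin.tail m) _ (hY'.comp (measurable_prodMk_left (x := fun i => b (s i))))
    simp only [hin]
    rw [← siteLaw_map hs, integral_map (measurable_pi_lambda _ fun i => measurable_pi_apply (s i)).aemeasurable]
    refine ((measurable_nestedMean (Fin.tail m)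
      (fun (w : ι → ℝ) z => Y fun i => Fin.cons (w i) (z i)) hY').pow_const _).aestronglyMeasurable

end Vale.Agent.P168.States
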